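import Vale.Agent.P366Z.Calc

/-!
# P366H: the functions of the shield
-/

open Real Filter Topology Set
open scoped ContDiff

noncomputable section

namespace Vale.Agent.P366H

/-- the exponent of the kernels -/
def kk (m : ℕ) : ℝ := (m : ℝ) - 9 / 4

/-- the cut-off of the kernels -/
def kap (r q : ℝ) : ℝ := smoothTransition (2 - 4 / r ^ 2 * q)

/-- the power -/
def pw (m : ℕ) (s q : ℝ) : ℝ := (q + s ^ 2) ^ (-(kk m / 2))

/-- the kernel -/
def ker (m : ℕ) (r s q : ℝ) : ℝ := kap r q * (s ^ kk m * pw m s q)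

/-- the level -/
def c0 (m : ℕ) : ℝ := (2 : ℝ) ^ (-(kk m / 2))

/-- the switch of the blow-up -/
def sig (m : ℕ) (K t : ℝ) : ℝ := smoothTransition ((K - c0 m / 4)⁻¹ * (t - c0 m / 4))

/-- the profile -/
def bet (t : ℝ) : ℝ := smoothTransition (t - 2) * t ^ (7 / 10 : ℝ)

variable {ι : Type} [Fintype ι]

/-- the second potential -/
def w2 (m : ℕ) (r : ℝ) (s z : ι → ℝ) : ℝ := ∑ j, ker m r (s j) (z j)

/-- the first potential -/
def WW (m : ℕ) (r : ℝ) (s z : ι → ℝ) : ℝ := 1 + ∑ j, s j ^ (-(3 / 2) : ℝ) * ker m r (s j) (z j)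

/-- the shield -/
def hs (m : ℕ) (r ε K : ℝ) (s z : ι → ℝ) : ℝ :=
  ε * bet (WW m r s z) * (1 - sig m K (w2 m r s z))⁻¹

/-! ### the smooth transition -/

/-- its first derivative -/
def s1 : ℝ → ℝ := deriv smoothTransition

/-- its second derivative -/
def s2 : ℝ → ℝ := deriv s1

theorem sm_st : ContDiff ℝ ∞ smoothTransition := smoothTransition.contDiff

theorem sm_s1 : ContDiff ℝ ∞ s1 := (contDiff_infty_iff_deriv.1 sm_st).2

theorem sm_s2 : ContDiff ℝ ∞ s2 := (contDiff_infty_iff_deriv.1 sm_s1).2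

theorem hd0 (z : ℝ) : HasDerivAt smoothTransition (s1 z) z :=
  (sm_st.differentiable (by simp) z).hasDerivAt

theorem hd1 (z : ℝ) : HasDerivAt s1 (s2 z) z := (sm_s1.differentiable (by simp) z).hasDerivAt

theorem s1_nn (z : ℝ) : 0 ≤ s1 z := smoothTransition.monotone.deriv_nonneg

theorem s1_zero {z : ℝ} (h : z ≤ 0 ∨ 1 ≤ z) : s1 z = 0 := by
  rcases h with h | h
  · refine IsLocalMin.deriv_eq_zero (Eventually.of_forall fun t => ?_)
    rw [smoothTransition.zero_of_nonpos h]; exact smoothTransition.nonneg t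
  · refine IsLocalMax.deriv_eq_zero (Eventually.of_forall fun t => ?_)
    rw [smoothTransition.one_of_one_le h]; exact smoothTransition.le_one t

theorem s2_zero {z : ℝ} (h : z ≤ 0 ∨ 1 ≤ z) : s2 z = 0 := by
  refine IsLocalMin.deriv_eq_zero (Eventually.of_forall fun t => ?_)
  rw [s1_zero h]; exact s1_nn t

theorem s_bd : ∃ D ≥ (1 : ℝ), ∀ z, s1 z ≤ D ∧ |s2 z| ≤ D := by
  obtain ⟨A, hA⟩ := isCompact_Icc.exists_bound_of_continuousOn
    (sm_s1.continuous.continuousOn (s := Icc (0 : ℝ) 1))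
  obtain ⟨B, hB⟩ := isCompact_Icc.exists_bound_of_continuousOn
    (sm_s2.continuous.continuousOn (s := Icc (0 : ℝ) 1))
  refine ⟨max 1 (max A B), le_max_left _ _, fun z => ?_⟩
  by_cases hz : z ∈ Icc (0 : ℝ) 1
  · exact ⟨((le_abs_self _).trans (hA z hz)).trans ((le_max_left _ _).trans (le_max_right _ _)),
      (hB z hz).trans ((le_max_right _ _).trans (le_max_right _ _))⟩
  · have h : z ≤ 0 ∨ 1 ≤ z := by
      by_contra hc
      push Not at hc
      exact hz ⟨hc.1.le, hc.2.le⟩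
    rw [s1_zero h, s2_zero h, abs_zero]
    exact ⟨zero_le_one.trans (le_max_left _ _), zero_le_one.trans (le_max_left _ _)⟩

/-- the bound of the two derivatives -/
def DD : ℝ := s_bd.choose

theorem DD_ge : 1 ≤ DD := s_bd.choose_spec.1

theorem s1_le (z : ℝ) : s1 z ≤ DD := (s_bd.choose_spec.2 z).1

theorem s2_le (z : ℝ) : |s2 z| ≤ DD := (s_bd.choose_spec.2 z).2

/-! ### the kernel -/

variable {m : ℕ} {r s q : ℝ}

theorem kap_nn (r q : ℝ) : 0 ≤ kap r q := smoothTransition.nonneg _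

theorem kap_le (r q : ℝ) : kap r q ≤ 1 := smoothTransition.le_one _

theorem kap_arg_lo (hr : 0 < r) (h : q ≤ r ^ 2 / 4) : 1 ≤ 2 - 4 / r ^ 2 * q := by
  have : 4 / r ^ 2 * q ≤ 1 := by
    rw [div_mul_eq_mul_div, div_le_one (by positivity)]; linarith
  linarith

theorem kap_arg_hi (hr : 0 < r) (h : r ^ 2 / 2 ≤ q) : 2 - 4 / r ^ 2 * q ≤ 0 := by
  have : 2 ≤ 4 / r ^ 2 * q := by
    rw [div_mul_eq_mul_div, le_div_iff₀ (by positivity)]; linarith
  linarith

theorem kap_one (hr : 0 < r) (h : q ≤ r ^ 2 / 4) : kap r q = 1 :=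
  smoothTransition.one_of_one_le (kap_arg_lo hr h)

theorem kap_zero (hr : 0 < r) (h : r ^ 2 / 2 ≤ q) : kap r q = 0 :=
  smoothTransition.zero_of_nonpos (kap_arg_hi hr h)

theorem sm_kap (r : ℝ) : ContDiff ℝ ∞ (kap r) := sm_st.comp (by fun_prop)

/-- the derivative of the cut-off -/
def kap1 (r q : ℝ) : ℝ := s1 (2 - 4 / r ^ 2 * q) * -(4 / r ^ 2)

/-- the second derivative of the cut-off -/
def kap2 (r q : ℝ) : ℝ := s2 (2 - 4 / r ^ 2 * q) * -(4 / r ^ 2) * -(4 / r ^ 2)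

theorem hd_arg (r q : ℝ) : HasDerivAt (fun q => 2 - 4 / r ^ 2 * q) (-(4 / r ^ 2)) q := by
  simpa using ((hasDerivAt_id q).const_mul (4 / r ^ 2)).const_sub 2

theorem hd_kap (r q : ℝ) : HasDerivAt (kap r) (kap1 r q) q := (hd0 _).comp q (hd_arg r q)

theorem hd_kap1 (r q : ℝ) : HasDerivAt (kap1 r) (kap2 r q) q :=
  ((hd1 _).comp q (hd_arg r q)).mul_const _

theorem kap1_np (r q : ℝ) : kap1 r q ≤ 0 :=
  mul_nonpos_of_nonneg_of_nonpos (s1_nn _) (neg_nonpos.2 (by positivity))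

theorem kap1_abs (r q : ℝ) : |kap1 r q| ≤ DD * (4 / r ^ 2) := by
  unfold kap1
  rw [abs_mul, abs_neg, abs_of_nonneg (s1_nn _), abs_of_nonneg (by positivity)]
  exact mul_le_mul_of_nonneg_right (s1_le _) (by positivity)

theorem kap2_abs (r q : ℝ) : |kap2 r q| ≤ DD * (4 / r ^ 2) ^ 2 := by
  unfold kap2
  rw [mul_assoc, neg_mul_neg, ← sq, abs_mul, abs_of_nonneg (a := (4 / r ^ 2) ^ 2) (sq_nonneg _)]
  exact mul_le_mul_of_nonneg_right (s2_le _) (by positivity)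

theorem kap12_zero (hr : 0 < r) (h : q ≤ r ^ 2 / 4 ∨ r ^ 2 / 2 ≤ q) :
    kap1 r q = 0 ∧ kap2 r q = 0 := by
  have : 2 - 4 / r ^ 2 * q ≤ 0 ∨ 1 ≤ 2 - 4 / r ^ 2 * q :=
    h.symm.imp (kap_arg_hi hr) (kap_arg_lo hr)
  unfold kap1 kap2
  rw [s1_zero this, s2_zero this]; simp

theorem pw_pos (hs : 0 < s) (hq : 0 ≤ q) : 0 < pw m s q := rpow_pos_of_pos (by positivity) _

theorem hd_rp (hs : 0 < q + s ^ 2) (p : ℝ) :
    HasDerivAt (fun q => (q + s ^ 2) ^ p) (p * (q + s ^ 2) ^ (p - 1)) q := by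
  simpa using ((hasDerivAt_id q).add_const (s ^ 2)).rpow_const (p := p) (Or.inl hs.ne')

theorem sm_pw {k : WithTop ℕ∞} (hs : 0 < q + s ^ 2) : ContDiffAt ℝ k (pw m s) q :=
  (contDiffAt_id.add contDiffAt_const).rpow_const_of_ne hs.ne'

theorem sm_ker {k : ℕ∞} (hs : 0 < q + s ^ 2) : ContDiffAt ℝ k (ker m r s) q :=
  ((sm_kap r).of_le (by exact_mod_cast le_top)).contDiffAt.mul (contDiffAt_const.mul (sm_pw hs))

/-- the derivative of the kernel -/
def ker1 (m : ℕ) (r s q : ℝ) : ℝ := s ^ kk m *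
  (kap1 r q * pw m s q + kap r q * (-(kk m / 2) * (q + s ^ 2) ^ (-(kk m / 2) - 1)))

/-- the second derivative of the kernel -/
def ker2 (m : ℕ) (r s q : ℝ) : ℝ := s ^ kk m *
  (kap2 r q * pw m s q + 2 * kap1 r q * (-(kk m / 2) * (q + s ^ 2) ^ (-(kk m / 2) - 1)) +
    kap r q * (-(kk m / 2) * ((-(kk m / 2) - 1) * (q + s ^ 2) ^ (-(kk m / 2) - 1 - 1))))

theorem hd_ker (hs : 0 < q + s ^ 2) : HasDerivAt (ker m r s) (ker1 m r s q) q := by
  have := (hd_kap r q).mul ((hd_rp hs (-(kk m / 2))).const_mul (s ^ kk m))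
  refine this.congr_deriv ?_
  unfold ker1 pw; ring

theorem hd_ker1 (hs : 0 < q + s ^ 2) : HasDerivAt (ker1 m r s) (ker2 m r s q) q := by
  have := (((hd_kap1 r q).mul (hd_rp hs (-(kk m / 2)))).add ((hd_kap r q).mul
    ((hd_rp hs (-(kk m / 2) - 1)).const_mul (-(kk m / 2))))).const_mul (s ^ kk m)
  refine this.congr_deriv ?_
  unfold ker2 pw; ring

theorem d_ker (hs : 0 < q + s ^ 2) : deriv (ker m r s) q = ker1 m r s q := (hd_ker hs).deriv

theorem dd_ker (hs : 0 < q + s ^ 2) : deriv (deriv (ker m r s)) q = ker2 m r s q := by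
  have : deriv (ker m r s) =ᶠ[𝓝 q] ker1 m r s := by
    have h : ∀ᶠ t in 𝓝 q, 0 < t + s ^ 2 :=
      (continuous_id.add continuous_const).continuousAt.eventually (lt_mem_nhds hs)
    filter_upwards [h] with t ht using d_ker ht
  rw [this.deriv_eq, (hd_ker1 hs).deriv]

theorem ker_nn (hs : 0 < s) (hq : 0 ≤ q) : 0 ≤ ker m r s q :=
  mul_nonneg (kap_nn _ _) (mul_nonneg (rpow_pos_of_pos hs _).le (pw_pos hs hq).le)

theorem ker_zero (hr : 0 < r) (h : r ^ 2 / 2 ≤ q) : ker m r s q = 0 := by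
  unfold ker; rw [kap_zero hr h, zero_mul]

theorem c0_pos (m : ℕ) : 0 < c0 m := rpow_pos_of_pos two_pos _

theorem c0_le (hk : 0 ≤ kk m) : c0 m ≤ 1 := rpow_le_one_of_one_le_of_nonpos one_le_two (by linarith)

theorem ker_ge (hk : 0 ≤ kk m) (hr : 0 < r) (hs : 0 < s) (hsr : s ≤ r / 2) (hq : 0 ≤ q)
    (h : q ≤ s ^ 2) : c0 m ≤ ker m r s q := by
  have h1 : q ≤ r ^ 2 / 4 := h.trans (by nlinarith)
  unfold ker
  rw [kap_one hr h1, one_mul]
  have h2 : (2 * s ^ 2) ^ (-(kk m / 2)) ≤ pw m s q :=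
    rpow_le_rpow_of_nonpos (by positivity) (by linarith) (by linarith)
  refine le_trans (le_of_eq ?_) (mul_le_mul_of_nonneg_left h2 (rpow_pos_of_pos hs _).le)
  rw [mul_rpow zero_le_two (sq_nonneg _), ← rpow_natCast, ← rpow_mul hs.le, mul_left_comm,
    ← rpow_add hs]
  unfold c0
  rw [show kk m + ((2 : ℕ) : ℝ) * -(kk m / 2) = 0 by push_cast; ring, rpow_zero, mul_one]

/-- the constant of the errors -/
def CE (m : ℕ) (r : ℝ) : ℝ :=
  5 * r ^ 2 * (DD * (4 / r ^ 2) ^ 2 * (r ^ 2 / 4) ^ (-(kk m / 2)) +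
    kk m * (DD * (4 / r ^ 2)) * (r ^ 2 / 4) ^ (-(kk m / 2) - 1))

theorem CE_nn (hk : 0 ≤ kk m) (hr : 0 < r) : 0 ≤ CE m r := by
  have := DD_ge
  unfold CE; positivity

/-- the kernel is almost superharmonic -/
theorem ker_lap (hk : 0 ≤ kk m) (hr : 0 < r) (hs : 0 < s) (hq : 0 ≤ q) {L G : ℝ} (hG : 0 ≤ G)
    (h : q < r ^ 2 → G ≤ (4 + 1 / (2 * m)) * q ∧ 2 * m - 1 / 4 ≤ L) :
    ker1 m r s q * L + ker2 m r s q * G ≤ s ^ kk m * CE m r := by
  have hm : (9 / 4 : ℝ) ≤ m := by unfold kk at hk; linarith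
  have hD := DD_ge
  have hsk := rpow_pos_of_pos hs (kk m)
  by_cases h2 : r ^ 2 / 2 ≤ q
  · obtain ⟨a, b⟩ := kap12_zero hr (Or.inr h2)
    unfold ker1 ker2
    rw [a, b, kap_zero hr h2]
    simpa using mul_nonneg hsk.le (CE_nn hk hr)
  obtain ⟨g1, l1⟩ := h (by nlinarith)
  have hρ : 0 < q + s ^ 2 := by positivity
  have hL : 0 ≤ L := by linarith
  have hm' : 1 / (2 * (m : ℝ)) ≤ 1 := by rw [div_le_one (by linarith)]; linarith
  have g5 : G ≤ 5 * q := g1.trans (mul_le_mul_of_nonneg_right (by linarith) hq)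
  set P := (q + s ^ 2) ^ (-(kk m / 2) - 1 - 1) with hP
  have P0 : 0 < P := rpow_pos_of_pos hρ _
  have e1 : (q + s ^ 2) ^ (-(kk m / 2) - 1) = P * (q + s ^ 2) := by
    rw [hP, ← rpow_add_one hρ.ne']; congr 1; ring
  have main : -(kk m / 2) * (q + s ^ 2) ^ (-(kk m / 2) - 1) * L +
      -(kk m / 2) * ((-(kk m / 2) - 1) * P) * G ≤ 0 := by
    rw [e1]
    have a1 : (kk m / 2 + 1) * G ≤ (q + s ^ 2) * L := by
      have a2 : (kk m / 2 + 1) * (4 + 1 / (2 * m)) ≤ 2 * m - 1 / 4 := by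
        have : (m : ℝ) * (1 / (2 * m)) = 1 / 2 := by field_simp
        have h3 : 0 ≤ 1 / (2 * (m : ℝ)) := by positivity
        unfold kk; nlinarith
      calc (kk m / 2 + 1) * G ≤ (kk m / 2 + 1) * ((4 + 1 / (2 * m)) * q) :=
            mul_le_mul_of_nonneg_left g1 (by linarith)
        _ = (kk m / 2 + 1) * (4 + 1 / (2 * m)) * q := by ring
        _ ≤ L * q := mul_le_mul_of_nonneg_right (a2.trans l1) hq
        _ ≤ (q + s ^ 2) * L := by nlinarith [sq_nonneg s]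
    have : 0 ≤ kk m / 2 * P * ((q + s ^ 2) * L - (kk m / 2 + 1) * G) :=
      mul_nonneg (by positivity) (by linarith)
    linarith
  have t1 : kap1 r q * pw m s q * L ≤ 0 :=
    mul_nonpos_of_nonpos_of_nonneg
      (mul_nonpos_of_nonpos_of_nonneg (kap1_np _ _) (pw_pos hs hq).le) hL
  have t2 : (kap2 r q * pw m s q +
      2 * kap1 r q * (-(kk m / 2) * (q + s ^ 2) ^ (-(kk m / 2) - 1))) * G ≤ CE m r := by
    by_cases h4 : q ≤ r ^ 2 / 4
    · obtain ⟨a, b⟩ := kap12_zero hr (Or.inl h4)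
      rw [a, b]; simpa using CE_nn hk hr
    have b0 : r ^ 2 / 4 ≤ q + s ^ 2 := by nlinarith [sq_nonneg s]
    have b1 : pw m s q ≤ (r ^ 2 / 4) ^ (-(kk m / 2)) :=
      rpow_le_rpow_of_nonpos (by positivity) b0 (by linarith)
    have b2 : (q + s ^ 2) ^ (-(kk m / 2) - 1) ≤ (r ^ 2 / 4) ^ (-(kk m / 2) - 1) :=
      rpow_le_rpow_of_nonpos (by positivity) b0 (by linarith)
    have b3 : kap2 r q * pw m s q ≤ DD * (4 / r ^ 2) ^ 2 * (r ^ 2 / 4) ^ (-(kk m / 2)) :=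
      (mul_le_mul_of_nonneg_right ((le_abs_self _).trans (kap2_abs r q)) (pw_pos hs hq).le).trans
        (mul_le_mul_of_nonneg_left b1 (by positivity))
    have b4 : 2 * kap1 r q * (-(kk m / 2) * (q + s ^ 2) ^ (-(kk m / 2) - 1)) ≤
        kk m * (DD * (4 / r ^ 2)) * (r ^ 2 / 4) ^ (-(kk m / 2) - 1) := by
      have c1 : -kap1 r q ≤ DD * (4 / r ^ 2) := (neg_le_abs _).trans (kap1_abs r q)
      have c2 := mul_le_mul c1 b2 (rpow_pos_of_pos hρ _).le (by positivity)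
      have c3 := mul_le_mul_of_nonneg_left c2 hk
      linarith
    have b5 : G ≤ 5 * r ^ 2 := by nlinarith
    unfold CE
    rw [mul_comm (5 * r ^ 2)]
    exact (mul_le_mul_of_nonneg_right (add_le_add b3 b4) hG).trans
      (mul_le_mul_of_nonneg_left b5 (by positivity))
  have t3 := mul_nonpos_of_nonneg_of_nonpos (kap_nn r q) main
  have : ker1 m r s q * L + ker2 m r s q * G = s ^ kk m * (kap1 r q * pw m s q * L +
      (kap2 r q * pw m s q + 2 * kap1 r q * (-(kk m / 2) * (q + s ^ 2) ^ (-(kk m / 2) - 1))) * G +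
      kap r q * (-(kk m / 2) * (q + s ^ 2) ^ (-(kk m / 2) - 1) * L +
        -(kk m / 2) * ((-(kk m / 2) - 1) * P) * G)) := by
    unfold ker1 ker2; ring
  rw [this]
  exact mul_le_mul_of_nonneg_left (by linarith) hsk.le

/-- the constant of the gradients -/
def CG (m : ℕ) (r : ℝ) : ℝ := DD * (4 / r ^ 2) * (r ^ 2 / 4) ^ (-(kk m / 2)) * (3 * r)

theorem CG_nn (hr : 0 < r) : 0 ≤ CG m r := by
  have := DD_ge
  unfold CG; positivity

/-- the gradient of the kernel -/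
theorem ker_grad (hk : 0 ≤ kk m) (hr : 0 < r) (hs : 0 < s) (hq : 0 ≤ q) {γ : ℝ} (hγ : 0 ≤ γ)
    (h : q < r ^ 2 → γ ^ 2 ≤ (4 + 1 / (2 * m)) * q) :
    |ker1 m r s q| * γ ≤ s ^ kk m * CG m r + 2 * kk m * (ker m r s q / s) := by
  have hm : (9 / 4 : ℝ) ≤ m := by unfold kk at hk; linarith
  have hD := DD_ge
  have hsk := rpow_pos_of_pos hs (kk m)
  have r0 : 0 ≤ s ^ kk m * CG m r + 2 * kk m * (ker m r s q / s) :=
    add_nonneg (mul_nonneg hsk.le (CG_nn hr)) (mul_nonneg (by linarith) (div_nonneg (ker_nn hs hq) hs.le))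
  by_cases h2 : r ^ 2 / 2 ≤ q
  · obtain ⟨a, -⟩ := kap12_zero hr (Or.inr h2)
    unfold ker1
    rw [a, kap_zero hr h2]
    simpa using r0
  have hqr : q < r ^ 2 := by nlinarith
  have hρ : 0 < q + s ^ 2 := by positivity
  have hm' : 1 / (2 * (m : ℝ)) ≤ 1 := by rw [div_le_one (by linarith)]; linarith
  have g5 : γ ^ 2 ≤ 5 * q := (h hqr).trans (mul_le_mul_of_nonneg_right (by linarith) hq)
  have a1 : |kap1 r q| * pw m s q * γ ≤ CG m r := by
    by_cases h4 : q ≤ r ^ 2 / 4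
    · rw [(kap12_zero hr (Or.inl h4)).1]; simpa using CG_nn hr
    have b0 : r ^ 2 / 4 ≤ q + s ^ 2 := by nlinarith [sq_nonneg s]
    have b1 : pw m s q ≤ (r ^ 2 / 4) ^ (-(kk m / 2)) :=
      rpow_le_rpow_of_nonpos (by positivity) b0 (by linarith)
    have b2 : γ ≤ 3 * r := abs_le_of_sq_le_sq' (by nlinarith) (by positivity) |>.2
    unfold CG
    exact mul_le_mul (mul_le_mul (kap1_abs r q) b1 (pw_pos hs hq).le (by positivity)) b2 hγ
      (by positivity)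
  have e1 : (q + s ^ 2) ^ (-(kk m / 2) - 1) = pw m s q / (q + s ^ 2) := rpow_sub_one hρ.ne' _
  have a2 : γ / (q + s ^ 2) ≤ 4 / s := by
    rw [div_le_div_iff₀ hρ hs]
    nlinarith [sq_nonneg (γ - 2 * s), sq_nonneg s]
  have hp := pw_pos (m := m) hs hq
  have hκ := kap_nn r q
  calc |ker1 m r s q| * γ
      ≤ s ^ kk m * (|kap1 r q| * pw m s q + kap r q * (kk m / 2 * (pw m s q / (q + s ^ 2)))) * γ := by
        refine mul_le_mul_of_nonneg_right ?_ hγ
        unfold ker1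
        rw [abs_mul, abs_of_pos hsk, e1]
        refine mul_le_mul_of_nonneg_left ((abs_add_le _ _).trans (add_le_add ?_ ?_)) hsk.le
        · rw [abs_mul, abs_of_pos hp]
        · rw [neg_mul, mul_neg, abs_neg, abs_of_nonneg (by positivity)]
    _ = s ^ kk m * (|kap1 r q| * pw m s q * γ) +
          kk m / 2 * (kap r q * (s ^ kk m * pw m s q)) * (γ / (q + s ^ 2)) := by ring
    _ ≤ s ^ kk m * CG m r + kk m / 2 * (kap r q * (s ^ kk m * pw m s q)) * (4 / s) :=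
        add_le_add (mul_le_mul_of_nonneg_left a1 hsk.le)
          (mul_le_mul_of_nonneg_left a2 (by positivity))
    _ = _ := by unfold ker; ring

theorem ker_le (hk : 0 ≤ kk m) (hs : 0 < s) (hq : 0 ≤ q) : ker m r s q ≤ 1 := by
  have h2 : pw m s q ≤ (s ^ 2) ^ (-(kk m / 2)) :=
    rpow_le_rpow_of_nonpos (by positivity) (by linarith) (by linarith)
  have h3 : s ^ kk m * pw m s q ≤ 1 := by
    refine (mul_le_mul_of_nonneg_left h2 (rpow_pos_of_pos hs _).le).trans (le_of_eq ?_)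
    rw [← rpow_natCast, ← rpow_mul hs.le, ← rpow_add hs,
      show kk m + ((2 : ℕ) : ℝ) * -(kk m / 2) = 0 by push_cast; ring, rpow_zero]
  exact mul_le_one₀ (kap_le r q) (mul_nonneg (rpow_pos_of_pos hs _).le (pw_pos hs hq).le) h3

/-! ### the switch and the profile -/

theorem sig_nn (m : ℕ) (K t : ℝ) : 0 ≤ sig m K t := smoothTransition.nonneg _

theorem sig_lt {K t : ℝ} (hK : c0 m / 4 < K) (h : t < K) : sig m K t < 1 := by
  refine smoothTransition.lt_one_of_lt_one ?_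
  rw [inv_mul_lt_iff₀ (by linarith)]; linarith

theorem sig_arg {K t : ℝ} (hK : c0 m / 4 < K) (h : t ≤ c0 m / 4) :
    (K - c0 m / 4)⁻¹ * (t - c0 m / 4) ≤ 0 :=
  mul_nonpos_of_nonneg_of_nonpos (inv_nonneg.2 (by linarith)) (by linarith)

theorem sig_zero {K t : ℝ} (hK : c0 m / 4 < K) (h : t ≤ c0 m / 4) : sig m K t = 0 :=
  smoothTransition.zero_of_nonpos (sig_arg hK h)

theorem sig_one {K : ℝ} (hK : c0 m / 4 < K) : sig m K K = 1 :=
  smoothTransition.one_of_one_le (by rw [inv_mul_cancel₀ (by linarith)])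

theorem sm_sig (m : ℕ) (K : ℝ) : ContDiff ℝ ∞ (sig m K) := sm_st.comp (by fun_prop)

theorem mono_sig {K : ℝ} (hK : c0 m / 4 < K) : Monotone (sig m K) := fun _ _ h =>
  smoothTransition.monotone (mul_le_mul_of_nonneg_left (by linarith) (inv_nonneg.2 (by linarith)))

/-- the derivative of the switch -/
def sig1 (m : ℕ) (K t : ℝ) : ℝ := s1 ((K - c0 m / 4)⁻¹ * (t - c0 m / 4)) * (K - c0 m / 4)⁻¹

theorem hd_sig (m : ℕ) (K t : ℝ) : HasDerivAt (sig m K) (sig1 m K t) t := by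
  refine (hd0 _).comp t ?_
  simpa using ((hasDerivAt_id t).sub_const (c0 m / 4)).const_mul (K - c0 m / 4)⁻¹

theorem sig1_zero {K t : ℝ} (hK : c0 m / 4 < K) (h : t ≤ c0 m / 4) : sig1 m K t = 0 := by
  unfold sig1; rw [s1_zero (Or.inl (sig_arg hK h)), zero_mul]

theorem sig1_bd {K : ℝ} (hK : 3 * c0 m / 8 ≤ K) (t : ℝ) :
    0 ≤ sig1 m K t ∧ sig1 m K t ≤ DD * (8 / c0 m) := by
  have := c0_pos m
  have h1 : 0 < K - c0 m / 4 := by linarith
  refine ⟨mul_nonneg (s1_nn _) (inv_nonneg.2 h1.le), mul_le_mul (s1_le _) ?_ (inv_nonneg.2 h1.le)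
    (zero_le_one.trans DD_ge)⟩
  rw [inv_eq_one_div, div_le_div_iff₀ h1 this]; linarith

theorem bet_nn {t : ℝ} (h : 0 ≤ t) : 0 ≤ bet t :=
  mul_nonneg (smoothTransition.nonneg _) (rpow_nonneg h _)

theorem bet_zero {t : ℝ} (h : t ≤ 2) : bet t = 0 := by
  unfold bet; rw [smoothTransition.zero_of_nonpos (by linarith), zero_mul]

theorem bet_eq {t : ℝ} (h : 3 ≤ t) : bet t = t ^ (7 / 10 : ℝ) := by
  unfold bet; rw [smoothTransition.one_of_one_le (by linarith), one_mul]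

theorem sm_bet {k : ℕ∞} {t : ℝ} (h : 0 < t) : ContDiffAt ℝ k bet t :=
  ((sm_st.of_le (by exact_mod_cast le_top)).contDiffAt.comp t (contDiffAt_id.sub contDiffAt_const)).mul
    (contDiffAt_id.rpow_const_of_ne h.ne')

theorem hd_bet {t : ℝ} (h : 0 < t) : HasDerivAt bet
    (s1 (t - 2) * t ^ (7 / 10 : ℝ) + 7 / 10 * (bet t / t)) t := by
  have h1 : HasDerivAt (fun t => smoothTransition (t - 2)) (s1 (t - 2)) t :=
    (hd0 (t - 2)).comp_sub_const t 2
  refine (h1.mul (hasDerivAt_rpow_const (p := 7 / 10) (Or.inl h.ne'))).congr_deriv ?_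
  rw [rpow_sub_one h.ne']
  unfold bet; ring

end Vale.Agent.P366H
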