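import Vale.Agent.P366H.Fn

/-!
# P366H: the shield, pointwise
-/

open Real Filter Topology Set
open scoped ContDiff
open Vale.Agent.P366.Stmt Vale.Agent.P366Z

noncomputable section

namespace Vale.Agent.P366H

variable {m : ℕ} {ι : Type} [Fintype ι] {g : Field m} {x : E m}

/-- the weighted scalar curvature -/
def Rf (g : Field m) (f : E m → ℝ) (x : E m) : ℝ := scal g x - 2 * lap g f x - ip g f f x

/-- the weighted Laplacian -/
def Lf (g : Field m) (f u : E m → ℝ) (x : E m) : ℝ := lap g u x + ip g f u x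

theorem Lf_comp (hg : Met g) (f : E m → ℝ) {v : E m → ℝ} {φ : ℝ → ℝ} (hv : ContDiffAt ℝ 2 v x)
    (hφ : ContDiffAt ℝ 2 φ (v x)) : Lf g f (fun y => φ (v y)) x =
      deriv φ (v x) * Lf g f v x + deriv (deriv φ) (v x) * ip g v v x := by
  unfold Lf
  rw [hg.lap_comp hv hφ, ip_comp_right (hφ.differentiableAt (by norm_num)).hasDerivAt (diff2 hv)]
  ring

omit [Fintype ι] in
theorem Lf_sum (hg : Met g) (f : E m → ℝ) (t : Finset ι) (c : ι → ℝ) {u : ι → E m → ℝ}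
    (hu : ∀ j, ContDiffAt ℝ 2 (u j) x) :
    Lf g f (fun y => ∑ j ∈ t, c j * u j y) x = ∑ j ∈ t, c j * Lf g f (u j) x := by
  classical
  induction t using Finset.induction_on with
  | empty => simp [Lf, lap_const, ip_const_right]
  | insert a t ha ih =>
    have h1 : ContDiffAt ℝ 2 (fun y => c a * u a y) x := contDiffAt_const.mul (hu a)
    have h2 : ContDiffAt ℝ 2 (fun y => ∑ j ∈ t, c j * u j y) x :=
      ContDiffAt.sum fun j _ => contDiffAt_const.mul (hu j)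
    simp only [Finset.sum_insert ha]
    rw [← ih]
    unfold Lf
    rw [hg.lap_add h1 h2, ip_add_right (diff2 h1) (diff2 h2), lap_const_mul,
      ip_of_pd (u' := f) (s := 1) (v' := u a) (t := c a) (fun i => by ring) (pd_const_mul _)]
    ring

omit [Fintype ι] in
theorem gn_sum (hg : Met g) (t : Finset ι) {c : ι → ℝ} (hc : ∀ j, 0 ≤ c j) {u : ι → E m → ℝ}
    (hu : ∀ j, DifferentiableAt ℝ (u j) x) :
    gn g (fun y => ∑ j ∈ t, c j * u j y) x ≤ ∑ j ∈ t, c j * gn g (u j) x := by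
  classical
  induction t using Finset.induction_on with
  | empty => simp [gn_zero fun i => pd_const (0 : ℝ) i x]
  | insert a t ha ih =>
    have h1 : DifferentiableAt ℝ (fun y => c a * u a y) x := (hu a).const_mul _
    have h2 : DifferentiableAt ℝ (fun y => ∑ j ∈ t, c j * u j y) x :=
      DifferentiableAt.fun_sum fun j _ => (hu j).const_mul _
    simp only [Finset.sum_insert ha]
    refine (hg.gn_add_le (pd_add h1 h2)).trans (add_le_add (le_of_eq ?_) ih)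
    rw [gn_of_pd (pd_const_mul _), abs_of_nonneg (hc a)]

/-- an admissible family of radii -/
structure Rad (m : ℕ) (δ : ℝ) (s : ι → ℝ) : Prop where
  pos : ∀ j, 0 < s j
  le : ∀ j, s j ≤ δ
  sum : ∑ j, s j ^ ((m : ℝ) - 15 / 4) ≤ δ

variable {δ r : ℝ} {s z : ι → ℝ}

theorem Rad.four (h : Rad m δ s) (hδ : δ < 1) (j : ι) : 4 ≤ m := by
  by_contra hm
  have h3 : (m : ℝ) ≤ 3 := by exact_mod_cast (by omega : m ≤ 3)
  have h1 : 1 ≤ s j ^ ((m : ℝ) - 15 / 4) :=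
    one_le_rpow_of_pos_of_le_one_of_nonpos (h.pos j) ((h.le j).trans hδ.le) (by linarith)
  have h2 := Finset.single_le_sum (f := fun j => s j ^ ((m : ℝ) - 15 / 4))
    (fun j _ => (rpow_pos_of_pos (h.pos j) _).le) (Finset.mem_univ j)
  linarith [h.sum]

theorem Rad.kk (h : Rad m δ s) (hδ : δ < 1) (j : ι) : 0 ≤ kk m := by
  have : (4 : ℝ) ≤ m := by exact_mod_cast h.four hδ j
  unfold P366H.kk; linarith

theorem w2_nn (hs : ∀ j, 0 < s j) (hz : ∀ j, 0 ≤ z j) : 0 ≤ w2 m r s z :=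
  Finset.sum_nonneg fun j _ => ker_nn (hs j) (hz j)

theorem one_le_WW (hs : ∀ j, 0 < s j) (hz : ∀ j, 0 ≤ z j) : 1 ≤ WW m r s z :=
  le_add_of_nonneg_right (Finset.sum_nonneg fun j _ =>
    mul_nonneg (rpow_pos_of_pos (hs j) _).le (ker_nn (hs j) (hz j)))

theorem WW_ge (h : Rad m δ s) (hz : ∀ j, 0 ≤ z j) :
    δ ^ (-(3 / 2) : ℝ) * w2 m r s z ≤ WW m r s z := by
  unfold w2 WW
  rw [Finset.mul_sum]
  refine le_add_of_nonneg_of_le zero_le_one (Finset.sum_le_sum fun j _ => ?_)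
  exact mul_le_mul_of_nonneg_right (rpow_le_rpow_of_nonpos (h.pos j) (h.le j) (by norm_num))
    (ker_nn (h.pos j) (hz j))

theorem inv_le_aux {A t : ℝ} (hA : 0 < A) (ht : 0 < t) :
    1 / t ≤ A + A ^ (-(1 / 2) : ℝ) * t ^ (-(3 / 2) : ℝ) := by
  by_cases h : 1 / t ≤ A
  · exact le_add_of_le_of_nonneg h (by positivity)
  have h1 : t ≤ A⁻¹ := by
    rw [not_le, lt_div_iff₀ ht] at h
    rw [← one_div, le_div_iff₀ hA]; linarith
  have h2 : (A⁻¹) ^ (-(1 / 2) : ℝ) ≤ t ^ (-(1 / 2) : ℝ) := rpow_le_rpow_of_nonpos ht h1 (by norm_num)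
  have h3 : t ^ (-(3 / 2) : ℝ) = t ^ (-(1 / 2) : ℝ) / t := by
    rw [← rpow_sub_one ht.ne']; congr 1; norm_num
  have h4 : A ^ (-(1 / 2) : ℝ) * (A⁻¹) ^ (-(1 / 2) : ℝ) = 1 := by
    rw [← mul_rpow hA.le (inv_pos.2 hA).le, mul_inv_cancel₀ hA.ne', one_rpow]
  have h5 : 1 ≤ A ^ (-(1 / 2) : ℝ) * t ^ (-(1 / 2) : ℝ) :=
    h4.symm.le.trans (mul_le_mul_of_nonneg_left h2 (by positivity))
  rw [h3, ← mul_div_assoc]
  exact le_add_of_nonneg_of_le hA.le (div_le_div_of_nonneg_right h5 ht.le)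

theorem sum_div_le (hs : ∀ j, 0 < s j) (hz : ∀ j, 0 ≤ z j) :
    ∑ j, ker m r (s j) (z j) / s j ≤ WW m r s z ^ (2 / 3 : ℝ) * (w2 m r s z + 1) := by
  have h1 := one_le_WW (m := m) (r := r) hs hz
  set W := WW m r s z with hW
  have W0 : 0 < W := by linarith
  have hA : 0 < W ^ (2 / 3 : ℝ) := rpow_pos_of_pos W0 _
  have e : (W ^ (2 / 3 : ℝ)) ^ (-(1 / 2) : ℝ) * W = W ^ (2 / 3 : ℝ) := by
    rw [← rpow_mul W0.le, ← rpow_add_one W0.ne']; congr 1; norm_num
  calc ∑ j, ker m r (s j) (z j) / s j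
      ≤ ∑ j, (W ^ (2 / 3 : ℝ) * ker m r (s j) (z j) + (W ^ (2 / 3 : ℝ)) ^ (-(1 / 2) : ℝ) *
          (s j ^ (-(3 / 2) : ℝ) * ker m r (s j) (z j))) := Finset.sum_le_sum fun j _ => by
        have := mul_le_mul_of_nonneg_right (inv_le_aux hA (hs j)) (ker_nn (m := m) (r := r) (hs j) (hz j))
        calc _ = 1 / s j * ker m r (s j) (z j) := by ring
          _ ≤ _ := this
          _ = _ := by ring
    _ = W ^ (2 / 3 : ℝ) * w2 m r s z + (W ^ (2 / 3 : ℝ)) ^ (-(1 / 2) : ℝ) * (W - 1) := by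
        rw [Finset.sum_add_distrib, ← Finset.mul_sum, ← Finset.mul_sum, hW]
        unfold w2 WW; ring
    _ ≤ _ := by
        have : 0 ≤ (W ^ (2 / 3 : ℝ)) ^ (-(1 / 2) : ℝ) := by positivity
        nlinarith

/-- the conditions on the squared distances at the point `x` -/
structure Sq (g : Field m) (r : ℝ) (f : E m → ℝ) (q : ι → E m → ℝ) (x : E m) : Prop where
  c2 : ∀ j, ContDiffAt ℝ 2 (q j) x
  nn : ∀ j, 0 ≤ q j x
  gr : ∀ j, q j x < r ^ 2 → ip g (q j) (q j) x ≤ (4 + 1 / (2 * m)) * q j x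
  lp : ∀ j, q j x < r ^ 2 → 2 * m - 1 / 4 ≤ lap g (q j) x + ip g f (q j) x

variable {f : E m → ℝ} {q : ι → E m → ℝ}

theorem c_ker {k : ℕ∞} {u : E m → ℝ} {t : ℝ} (ht : 0 < t) (hu : ContDiffAt ℝ k u x) (h0 : 0 ≤ u x) :
    ContDiffAt ℝ k (fun y => ker m r t (u y)) x :=
  (sm_ker (by positivity)).comp x hu

theorem c_w2 {k : ℕ∞} (hs : ∀ j, 0 < s j) (hq : ∀ j, ContDiffAt ℝ k (q j) x)
    (h0 : ∀ j, 0 ≤ q j x) : ContDiffAt ℝ k (fun y => w2 m r s fun j => q j y) x :=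
  ContDiffAt.sum fun j _ => c_ker (hs j) (hq j) (h0 j)

theorem c_WW {k : ℕ∞} (hs : ∀ j, 0 < s j) (hq : ∀ j, ContDiffAt ℝ k (q j) x)
    (h0 : ∀ j, 0 ≤ q j x) : ContDiffAt ℝ k (fun y => WW m r s fun j => q j y) x :=
  contDiffAt_const.add (ContDiffAt.sum fun j _ => contDiffAt_const.mul (c_ker (hs j) (hq j) (h0 j)))

theorem c_hs {k : ℕ∞} {ε K : ℝ} (hs : ∀ j, 0 < s j) (hq : ∀ j, ContDiffAt ℝ k (q j) x)
    (h0 : ∀ j, 0 ≤ q j x) (hK : c0 m / 4 < K) (hw : w2 m r s (fun j => q j x) < K) :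
    ContDiffAt ℝ k (fun y => P366H.hs m r ε K s fun j => q j y) x := by
  have h1 := one_le_WW (m := m) (r := r) hs h0
  refine (contDiffAt_const.mul ((sm_bet (by linarith)).comp x (c_WW hs hq h0))).mul
    (ContDiffAt.inv (contDiffAt_const.sub (((sm_sig m K).of_le
      (by exact_mod_cast le_top)).contDiffAt.comp x (c_w2 hs hq h0))) ?_)
  exact (sub_pos.2 (sig_lt hK hw)).ne'

theorem Sq.Lf_WW (hg : Met g) (h : Sq g r f q x) (hs : Rad m δ s) (hδ : δ < 1) (hr : 0 < r) :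
    Lf g f (fun y => WW m r s fun j => q j y) x ≤ δ * |CE m r| := by
  have e : Lf g f (fun y => WW m r s fun j => q j y) x =
      Lf g f (fun y => ∑ j, s j ^ (-(3 / 2) : ℝ) * ker m r (s j) (q j y)) x := by
    unfold Lf WW
    rw [ip_of_pd (u' := f) (s := 1) (t := 1) (fun i => by ring)
      (v' := fun y => ∑ j, s j ^ (-(3 / 2) : ℝ) * ker m r (s j) (q j y))
      (fun i => by rw [pd_const_add, one_mul])]
    simp only [add_comm (1 : ℝ), lap_add_const, one_mul]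
  rw [e, Lf_sum hg f Finset.univ _ (u := fun j y => ker m r (s j) (q j y))
    fun j => c_ker (k := 2) (hs.pos j) (h.c2 j) (h.nn j)]
  refine le_trans (Finset.sum_le_sum fun j _ => ?_) ((Finset.sum_mul _ _ _).symm.le.trans
    (mul_le_mul_of_nonneg_right hs.sum (abs_nonneg _)))
  have p := hs.pos j
  have ρ : 0 < q j x + s j ^ 2 := by have := h.nn j; positivity
  rw [Lf_comp hg f (h.c2 j) (sm_ker (k := 2) ρ), d_ker ρ, dd_ker ρ]
  have a := ker_lap (hs.kk hδ j) hr p (h.nn j) (hg.ip_nonneg (q j) x) (L := Lf g f (q j) x)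
    fun hh => ⟨h.gr j hh, h.lp j hh⟩
  refine (mul_le_mul_of_nonneg_left a (rpow_pos_of_pos p _).le).trans ?_
  rw [← mul_assoc, ← rpow_add p, show -(3 / 2) + kk m = (m : ℝ) - 15 / 4 by unfold kk; ring]
  exact mul_le_mul_of_nonneg_left (le_abs_self _) (rpow_pos_of_pos p _).le

theorem Sq.gn_ker (hg : Met g) (h : Sq g r f q x) (hs : Rad m δ s) (hδ : δ < 1) (hr : 0 < r)
    (j : ι) : gn g (fun y => ker m r (s j) (q j y)) x ≤
      s j ^ kk m * CG m r + 2 * kk m * (ker m r (s j) (q j x) / s j) := by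
  have p := hs.pos j
  have ρ : 0 < q j x + s j ^ 2 := by have := h.nn j; positivity
  rw [gn_comp (hd_ker ρ) (diff2 (h.c2 j))]
  exact ker_grad (hs.kk hδ j) hr p (h.nn j) (gn_nonneg _ _ _)
    fun hh => by rw [hg.gn_sq]; exact h.gr j hh

theorem Sq.gn_w2 (hg : Met g) (h : Sq g r f q x) (hs : Rad m δ s) (hδ : δ < 1) (hr : 0 < r)
    (hw : w2 m r s (fun j => q j x) ≤ 1) : gn g (fun y => w2 m r s fun j => q j y) x ≤
      (CG m r + 4 * |kk m|) * WW m r s (fun j => q j x) ^ (2 / 3 : ℝ) := by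
  have h1 := one_le_WW (m := m) (r := r) hs.pos h.nn
  have h2 : 1 ≤ WW m r s (fun j => q j x) ^ (2 / 3 : ℝ) := one_le_rpow h1 (by norm_num)
  have a := gn_sum hg Finset.univ (c := fun _ : ι => (1 : ℝ)) (fun _ => zero_le_one)
    (u := fun j y => ker m r (s j) (q j y))
    fun j => diff2 (c_ker (k := 2) (hs.pos j) (h.c2 j) (h.nn j))
  simp only [one_mul] at a
  refine a.trans ((Finset.sum_le_sum fun j _ => (h.gn_ker hg hs hδ hr j).trans (add_le_add
    (b := s j ^ ((m : ℝ) - 15 / 4) * CG m r) (d := 2 * |kk m| * (ker m r (s j) (q j x) / s j))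
    ?_ ?_)).trans ?_)
  · exact mul_le_mul_of_nonneg_right (rpow_le_rpow_of_exponent_ge (hs.pos j)
      ((hs.le j).trans hδ.le) (by unfold kk; linarith)) (CG_nn hr)
  · rw [abs_of_nonneg (hs.kk hδ j)]
  rw [Finset.sum_add_distrib, ← Finset.sum_mul, ← Finset.mul_sum]
  have b := sum_div_le (m := m) (r := r) hs.pos h.nn
  have c := CG_nn (m := m) hr
  have d := abs_nonneg (kk m)
  have e := hs.sum
  have k1 : (∑ j, s j ^ ((m : ℝ) - 15 / 4)) * CG m r ≤
      CG m r * WW m r s (fun j => q j x) ^ (2 / 3 : ℝ) := by nlinarith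
  have k2 : ∑ j, ker m r (s j) (q j x) / s j ≤ 2 * WW m r s (fun j => q j x) ^ (2 / 3 : ℝ) := by
    nlinarith
  nlinarith

/-- the bound of the gradient of the first potential -/
def YY (m : ℕ) (r : ℝ) (s : ι → ℝ) : ℝ :=
  ∑ j, s j ^ (-(3 / 2) : ℝ) * (s j ^ kk m * CG m r + 2 * |kk m| * (1 / s j))

theorem Sq.gn_WW (hg : Met g) (h : Sq g r f q x) (hs : Rad m δ s) (hδ : δ < 1) (hr : 0 < r) :
    gn g (fun y => WW m r s fun j => q j y) x ≤ YY m r s := by
  have e : gn g (fun y => WW m r s fun j => q j y) x =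
      gn g (fun y => ∑ j, s j ^ (-(3 / 2) : ℝ) * ker m r (s j) (q j y)) x := by
    unfold WW
    rw [gn_of_pd (s := 1) (u' := fun y => ∑ j, s j ^ (-(3 / 2) : ℝ) * ker m r (s j) (q j y))
      (fun i => by rw [pd_const_add, one_mul]), abs_one, one_mul]
  rw [e]
  refine (gn_sum hg Finset.univ (fun j => (rpow_pos_of_pos (hs.pos j) _).le)
    (u := fun j y => ker m r (s j) (q j y))
    fun j => diff2 (c_ker (k := 2) (hs.pos j) (h.c2 j) (h.nn j))).trans
    (Finset.sum_le_sum fun j _ => mul_le_mul_of_nonneg_left ((h.gn_ker hg hs hδ hr j).trans ?_)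
      (rpow_pos_of_pos (hs.pos j) _).le)
  rw [abs_of_nonneg (hs.kk hδ j)]
  exact add_le_add le_rfl (mul_le_mul_of_nonneg_left (div_le_div_of_nonneg_right
    (ker_le (hs.kk hδ j) (hs.pos j) (h.nn j)) (hs.pos j).le) (by linarith [hs.kk hδ j]))

theorem Rf_add (hg : Met g) {l W : E m → ℝ} (hf : ContDiffAt ℝ 2 f x) (hl : ContDiffAt ℝ 2 l x)
    (hW : ContDiffAt ℝ 2 W x) (h1 : 1 ≤ W x) {v : ℝ} (hv : 0 ≤ v) (hL : Lf g f W x ≤ v) :
    Rf g (fun y => f y + l y) x - ip g l l x - v + (gn g W x / W x) ^ 2 / 2 ≤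
      Rf g (fun y => f y + l y + log (W y) / 2) x := by
  have W0 : 0 < W x := by linarith
  have hφ : ContDiffAt ℝ 2 (fun t : ℝ => log t / 2) (W x) :=
    (contDiffAt_log.2 W0.ne').div_const _
  have hψ : ContDiffAt ℝ 2 (fun y => log (W y) / 2) x := hφ.comp x hW
  have d1 : ∀ t : ℝ, t ≠ 0 → HasDerivAt (fun t : ℝ => log t / 2) (t⁻¹ / 2) t :=
    fun t ht => (hasDerivAt_log ht).div_const _
  have d2 : deriv (deriv fun t : ℝ => log t / 2) (W x) = -((W x) ^ 2)⁻¹ / 2 := by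
    have : deriv (fun t : ℝ => log t / 2) =ᶠ[𝓝 (W x)] fun t => t⁻¹ / 2 := by
      filter_upwards [eventually_ne_nhds W0.ne'] with t ht using (d1 t ht).deriv
    rw [this.deriv_eq, ((hasDerivAt_inv W0.ne').div_const 2).deriv]
  have e1 := Lf_comp hg f hW hφ
  rw [(d1 _ W0.ne').deriv, d2] at e1
  have e2 : ip g (fun y => log (W y) / 2) (fun y => log (W y) / 2) x =
      (W x)⁻¹ / 2 * ((W x)⁻¹ / 2) * ip g W W x :=
    ip_comp (φ := fun t => log t / 2) (ψ := fun t => log t / 2) (d1 _ W0.ne') (d1 _ W0.ne')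
      (diff2 hW) (diff2 hW)
  have hfl : ContDiffAt ℝ 2 (fun y => f y + l y) x := hf.add hl
  set ψ := fun y => log (W y) / 2 with hψd
  have e3 : ip g (fun y => f y + l y + ψ y) (fun y => f y + l y + ψ y) x =
      ip g (fun y => f y + l y) (fun y => f y + l y) x + 2 * ip g f ψ x + 2 * ip g l ψ x +
        ip g ψ ψ x := by
    rw [ip_add_left (u := fun y => f y + l y) (diff2 hfl) (diff2 hψ),
      ip_add_right (v := fun y => f y + l y) (diff2 hfl) (diff2 hψ),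
      ip_add_right (v := fun y => f y + l y) (diff2 hfl) (diff2 hψ),
      hg.ip_sy ψ (fun y => f y + l y), ip_add_left (v := ψ) (diff2 hf) (diff2 hl)]
    ring
  have e4 : 2 * ip g l ψ x ≤ ip g l l x + ip g ψ ψ x := by
    have a := (abs_le.1 (hg.abs_ip_le l ψ x)).2
    rw [← hg.gn_sq, ← hg.gn_sq]
    nlinarith [sq_nonneg (gn g l x - gn g ψ x)]
  have e5 : (gn g W x / W x) ^ 2 = ((W x) ^ 2)⁻¹ * ip g W W x := by
    rw [div_pow, hg.gn_sq]; ring
  have e6 : (W x)⁻¹ * Lf g f W x ≤ v := by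
    rw [inv_mul_le_iff₀ W0]; nlinarith
  unfold Rf
  show _ ≤ scal g x - 2 * lap g (fun y => (f y + l y) + ψ y) x - _
  rw [hg.lap_add hfl hψ, e3, e5]
  unfold Lf at e1 e6
  have e7 : (W x)⁻¹ / 2 * ((W x)⁻¹ / 2) = ((W x) ^ 2)⁻¹ / 4 := by ring
  rw [e7] at e2
  nlinarith

/-- the gradient of the shield -/
theorem Sq.gn_hs (hg : Met g) (h : Sq g r f q x) (hs : Rad m δ s) (hδ : δ < 1) (hr : 0 < r)
    {ε K θ : ℝ} (hε : 0 < ε) (hK : 3 * c0 m / 8 ≤ K) (hK' : K ≤ c0 m / 2)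
    (hw : w2 m r s (fun j => q j x) < K) (hθ : 0 < θ) (h3 : 3 ≤ δ ^ (-(3 / 2) : ℝ) * (c0 m / 4))
    (h4 : DD * (8 / c0 m) * (CG m r + 4 * |kk m|) / (ε * θ) ≤
      (δ ^ (-(3 / 2) : ℝ) * (c0 m / 4)) ^ (1 / 30 : ℝ)) :
    gn g (fun y => P366H.hs m r ε K s fun j => q j y) x ≤
      (9 * ε * DD + 7 / 10 * P366H.hs m r ε K s fun j => q j x) *
        (gn g (fun y => WW m r s fun j => q j y) x / WW m r s fun j => q j x) +
      θ * (P366H.hs m r ε K s fun j => q j x) ^ 2 := by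
  have c0p := c0_pos m
  have hK1 : c0 m / 4 < K := by linarith
  have h1 := one_le_WW (m := m) (r := r) hs.pos h.nn
  have hD := DD_ge
  have dW := diff2 (c_WW (k := 2) (r := r) hs.pos h.c2 h.nn)
  have dw := diff2 (c_w2 (k := 2) (r := r) hs.pos h.c2 h.nn)
  set W := fun y => WW m r s fun j => q j y with hW
  set w := fun y => w2 m r s fun j => q j y with hw'
  change w x < K at hw
  change 1 ≤ W x at h1
  have W0 : 0 < W x := by linarith
  have σ1 : 0 < 1 - sig m K (w x) := sub_pos.2 (sig_lt hK1 hw)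
  have dτ : HasDerivAt (fun t => (1 - sig m K t)⁻¹) (sig1 m K (w x) / (1 - sig m K (w x)) ^ 2)
      (w x) := (((hd_sig m K (w x)).const_sub 1).inv σ1.ne').congr_deriv (by ring)
  have dβ := (hd_bet W0).const_mul ε
  have β0 := bet_nn W0.le
  have τ0 : 0 < (1 - sig m K (w x))⁻¹ := inv_pos.2 σ1
  obtain ⟨u0, u1⟩ := sig1_bd hK (w x)
  have key : gn g (fun y => P366H.hs m r ε K s fun j => q j y) x ≤
      (1 - sig m K (w x))⁻¹ * (ε * (s1 (W x - 2) * W x ^ (7 / 10 : ℝ) + 7 / 10 * (bet (W x) / W x))) *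
        gn g W x + ε * bet (W x) * (sig1 m K (w x) / (1 - sig m K (w x)) ^ 2) * gn g w x := by
    refine (hg.gn_add_le
      (u₁ := fun y => (1 - sig m K (w x))⁻¹ * (ε * bet (W y)))
      (u₂ := fun y => ε * bet (W x) * (1 - sig m K (w y))⁻¹) fun i => ?_).trans (le_of_eq ?_)
    · rw [pd_const_mul, pd_const_mul (c := ε * bet (W x))]
      have := pd_mul (f := fun y => ε * bet (W y)) (h := fun y => (1 - sig m K (w y))⁻¹)
        (dβ.differentiableAt.comp x dW) (dτ.differentiableAt.comp x dw) i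
      refine this.trans ?_
      ring
    · have a0 := s1_nn (W x - 2)
      rw [gn_of_pd (pd_const_mul _), gn_of_pd (pd_const_mul (c := ε * bet (W x))),
        gn_comp (φ := fun t => ε * bet t) dβ dW, gn_comp (φ := fun t => (1 - sig m K t)⁻¹) dτ dw,
        abs_of_pos τ0, abs_of_nonneg (a := ε * bet (W x)) (by positivity),
        abs_of_nonneg (by positivity), abs_of_nonneg (by positivity)]
      ring
  have big : c0 m / 4 ≤ w x → δ ^ (-(3 / 2) : ℝ) * (c0 m / 4) ≤ W x := fun hh => by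
    rcases isEmpty_or_nonempty ι with hι | ⟨⟨j⟩⟩
    · exfalso
      have : w x = 0 := by simp [hw', w2]
      linarith
    · exact (mul_le_mul_of_nonneg_left hh (rpow_pos_of_pos ((hs.pos j).trans_le (hs.le j)) _).le).trans
        (WW_ge hs h.nn)
  have hh : P366H.hs m r ε K s (fun j => q j x) = ε * bet (W x) * (1 - sig m K (w x))⁻¹ := rfl
  rw [hh]
  have gW := gn_nonneg g W x
  have A : (1 - sig m K (w x))⁻¹ * (ε * (s1 (W x - 2) * W x ^ (7 / 10 : ℝ))) * gn g W x ≤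
      9 * ε * DD * (gn g W x / W x) := by
    by_cases h5 : 3 ≤ W x
    · rw [s1_zero (Or.inr (by linarith))]
      simp only [zero_mul, mul_zero]; positivity
    have h6 : w x ≤ c0 m / 4 := by
      by_contra h7
      linarith [big (not_le.1 h7).le]
    rw [sig_zero hK1 h6, sub_zero, inv_one, one_mul]
    have b1 : W x ^ (7 / 10 : ℝ) ≤ W x := by
      simpa using rpow_le_rpow_of_exponent_le h1 (by norm_num : (7 / 10 : ℝ) ≤ 1)
    have b2 : s1 (W x - 2) * W x ^ (7 / 10 : ℝ) ≤ DD * 3 :=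
      mul_le_mul (s1_le _) (by linarith) (by positivity) (by linarith)
    have b3 : gn g W x ≤ 3 * (gn g W x / W x) := by
      rw [← mul_div_assoc, le_div_iff₀ W0]; nlinarith
    calc _ ≤ ε * (DD * 3) * (3 * (gn g W x / W x)) :=
          mul_le_mul (mul_le_mul_of_nonneg_left b2 hε.le) b3 gW (by positivity)
      _ = _ := by ring
  have C : ε * bet (W x) * (sig1 m K (w x) / (1 - sig m K (w x)) ^ 2) * gn g w x ≤
      θ * (ε * bet (W x) * (1 - sig m K (w x))⁻¹) ^ 2 := by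
    by_cases h6 : w x ≤ c0 m / 4
    · rw [sig1_zero hK1 h6]
      simp only [zero_div, zero_mul, mul_zero]; positivity
    have b0 := big (not_le.1 h6).le
    have b1 : 3 ≤ W x := h3.trans b0
    have hk : 0 ≤ kk m := by
      rcases isEmpty_or_nonempty ι with hι | ⟨⟨j⟩⟩
      · exfalso
        have : w x = 0 := by simp [hw', w2]
        linarith [not_le.1 h6]
      · exact hs.kk hδ j
    have b2 := h.gn_w2 hg hs hδ hr (by change w x ≤ 1; linarith [c0_le hk])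
    change gn g w x ≤ _ * W x ^ (2 / 3 : ℝ) at b2
    have b3 : DD * (8 / c0 m) * (CG m r + 4 * |kk m|) / (ε * θ) ≤ W x ^ (1 / 30 : ℝ) :=
      h4.trans (rpow_le_rpow (by linarith) b0 (by norm_num))
    rw [div_le_iff₀ (by positivity)] at b3
    have b4 : W x ^ (1 / 30 : ℝ) * W x ^ (2 / 3 : ℝ) = bet (W x) := by
      rw [bet_eq b1, ← rpow_add W0]; norm_num
    have cg := CG_nn (m := m) hr
    have b5 : sig1 m K (w x) * gn g w x ≤ θ * (ε * bet (W x)) := by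
      calc _ ≤ DD * (8 / c0 m) * ((CG m r + 4 * |kk m|) * W x ^ (2 / 3 : ℝ)) :=
            mul_le_mul u1 b2 (gn_nonneg _ _ _) (by positivity)
        _ = DD * (8 / c0 m) * (CG m r + 4 * |kk m|) * W x ^ (2 / 3 : ℝ) := by ring
        _ ≤ W x ^ (1 / 30 : ℝ) * (ε * θ) * W x ^ (2 / 3 : ℝ) :=
            mul_le_mul_of_nonneg_right b3 (by positivity)
        _ = _ := by rw [← b4]; ring
    calc _ = ε * bet (W x) * ((1 - sig m K (w x))⁻¹) ^ 2 * (sig1 m K (w x) * gn g w x) := by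
          rw [inv_pow]; ring
      _ ≤ ε * bet (W x) * ((1 - sig m K (w x))⁻¹) ^ 2 * (θ * (ε * bet (W x))) :=
          mul_le_mul_of_nonneg_left b5 (by positivity)
      _ = _ := by ring
  refine key.trans ?_
  have : (1 - sig m K (w x))⁻¹ * (ε * (s1 (W x - 2) * W x ^ (7 / 10 : ℝ) +
      7 / 10 * (bet (W x) / W x))) * gn g W x =
      (1 - sig m K (w x))⁻¹ * (ε * (s1 (W x - 2) * W x ^ (7 / 10 : ℝ))) * gn g W x +
      7 / 10 * (ε * bet (W x) * (1 - sig m K (w x))⁻¹) * (gn g W x / W x) := by ring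
  rw [this]
  linarith

theorem hs_nn {ε K : ℝ} (hs : ∀ j, 0 < s j) (hz : ∀ j, 0 ≤ z j) (hε : 0 ≤ ε) (hK : c0 m / 4 < K)
    (hw : w2 m r s z < K) : 0 ≤ P366H.hs m r ε K s z :=
  mul_nonneg (mul_nonneg hε (bet_nn (zero_le_one.trans (one_le_WW hs hz))))
    (inv_nonneg.2 (sub_pos.2 (sig_lt hK hw)).le)

theorem out_eq (hr : 0 < r) (hz : ∀ j, r ^ 2 / 2 ≤ z j) (ε K : ℝ) :
    WW m r s z = 1 ∧ w2 m r s z = 0 ∧ P366H.hs m r ε K s z = 0 := by
  have h1 : WW m r s z = 1 := by simp [WW, fun j => ker_zero (m := m) (s := s j) hr (hz j)]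
  refine ⟨h1, by simp [w2, fun j => ker_zero (m := m) (s := s j) hr (hz j)], ?_⟩
  unfold P366H.hs
  rw [h1, bet_zero one_le_two, mul_zero, zero_mul]

theorem in_ge (hs : Rad m δ s) (hδ : δ < 1) (hr : 0 < r) (hδr : δ ≤ r / 2) (hz : ∀ j, 0 ≤ z j)
    {j : ι} (hj : z j ≤ s j ^ 2) : c0 m ≤ w2 m r s z :=
  (ker_ge (hs.kk hδ j) hr (hs.pos j) ((hs.le j).trans hδr) (hz j) hj).trans
    (Finset.single_le_sum (f := fun j => ker m r (s j) (z j))
      (fun j _ => ker_nn (hs.pos j) (hz j)) (Finset.mem_univ j))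

/-- the lower bound of the shield near the level `K` -/
theorem hs_ge (hs : Rad m δ s) (hδ : 0 < δ) (hz : ∀ j, 0 ≤ z j) {ε K : ℝ} (hε : 0 < ε)
    (hK : c0 m / 4 < K) (h3 : 3 ≤ δ ^ (-(3 / 2) : ℝ) * (c0 m / 4)) (hw : w2 m r s z < K)
    (hw' : c0 m / 4 ≤ w2 m r s z) : ε * (1 - sig m K (w2 m r s z))⁻¹ ≤ P366H.hs m r ε K s z := by
  have b : 3 ≤ WW m r s z :=
    h3.trans ((mul_le_mul_of_nonneg_left hw' (rpow_pos_of_pos hδ _).le).trans (WW_ge hs hz))
  unfold P366H.hs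
  refine mul_le_mul_of_nonneg_right ?_ (inv_nonneg.2 (sub_pos.2 (sig_lt hK hw)).le)
  rw [bet_eq b]
  exact le_mul_of_one_le_right hε.le (one_le_rpow (by linarith) (by norm_num))

theorem proper_aux {ε K : ℝ} (hε : 0 < ε) (hK : c0 m / 4 < K) (T : ℝ) :
    ∃ K' < K, c0 m / 4 ≤ K' ∧ ∀ t, K' < t → t < K → T < ε * (1 - sig m K t)⁻¹ := by
  have hT : 0 < |T| + 1 := by positivity
  have h1 : ∀ᶠ t in 𝓝 K, 1 - ε / (|T| + 1) < sig m K t :=
    (sm_sig m K).continuous.continuousAt.eventually (lt_mem_nhds (by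
      rw [sig_one hK]; have := div_pos hε hT; linarith))
  obtain ⟨a, ha, h2⟩ := exists_Ioc_subset_of_mem_nhds h1 ⟨c0 m / 4, hK⟩
  refine ⟨max a (c0 m / 4), max_lt ha hK, le_max_right _ _, fun t h3 h4 => ?_⟩
  have h5 : 1 - ε / (|T| + 1) < sig m K t := h2 ⟨(le_max_left _ _).trans_lt h3, h4.le⟩
  have h6 : 0 < 1 - sig m K t := sub_pos.2 (sig_lt hK h4)
  rw [← div_eq_mul_inv, lt_div_iff₀ h6]
  have h7 : (1 - sig m K t) * (|T| + 1) < ε := by rw [← lt_div_iff₀ hT]; linarith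
  nlinarith [le_abs_self T]

/-- **SHIELD** -/
theorem shield (m : ℕ) {r v θ : ℝ} (hr : 0 < r) (hv : 0 < v) (hθ : 0 < θ) :
    ∃ ε > (0 : ℝ), ∃ δ > (0 : ℝ), ∀ (ι : Type) [Fintype ι] (s : ι → ℝ), Rad m δ s →
      (∀ z : ι → ℝ, (∀ j, 0 ≤ z j) → (∃ j, z j ≤ s j ^ 2) → c0 m ≤ w2 m r s z) ∧
      ∀ K, 3 * c0 m / 8 ≤ K → K ≤ c0 m / 2 →
        (∀ T, ∃ K' < K, ∀ z : ι → ℝ, (∀ j, 0 ≤ z j) → w2 m r s z < K → hs m r ε K s z ≤ T →
          w2 m r s z ≤ K') ∧
        ∃ h₁ : ℝ, ∀ (g : Field m) (f : E m → ℝ) (q : ι → E m → ℝ) (x : E m), Met g →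
          Sq g r f q x → Lf g f (fun y => WW m r s fun j => q j y) x ≤ v ∧
          (w2 m r s (fun j => q j x) < K →
            (-v ≤ (gn g (fun y => WW m r s fun j => q j y) x / WW m r s fun j => q j x) ^ 2 / 2 +
              hs m r ε K s (fun j => q j x) ^ 2 - 2 * gn g (fun y => hs m r ε K s fun j => q j y) x) ∧
            (∀ l : E m → ℝ, ContDiffAt ℝ 2 f x → ContDiffAt ℝ 2 l x →
              Rf g (fun y => f y + l y) x - ip g l l x - 2 * v ≤
                Rf g (fun y => f y + l y + log (WW m r s fun j => q j y) / 2) x +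
                hs m r ε K s (fun j => q j x) ^ 2 -
                2 * gn g (fun y => hs m r ε K s fun j => q j y) x) ∧
            (h₁ ≤ hs m r ε K s (fun j => q j x) →
              gn g (fun y => hs m r ε K s fun j => q j y) x ≤
                θ * hs m r ε K s (fun j => q j x) ^ 2)) := by
  have hD := DD_ge
  have c0p := c0_pos m
  obtain ⟨ε, hε, hεv⟩ : ∃ ε > (0 : ℝ), 16200 * (ε * DD) ^ 2 ≤ v := by
    refine ⟨√(v / 16200) / DD, by positivity, le_of_eq ?_⟩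
    rw [div_mul_cancel₀ _ (by linarith), sq_sqrt (by positivity)]; ring
  set θ' := min (θ / 2) (1 / 200) with hθ'
  have θ0 : 0 < θ' := lt_min (by linarith) (by norm_num)
  have t1 : Tendsto (fun δ : ℝ => δ ^ (-(3 / 2) : ℝ) * (c0 m / 4)) (𝓝[>] 0) atTop :=
    (tendsto_rpow_neg_nhdsGT_zero (by norm_num : (-(3 / 2) : ℝ) < 0)).atTop_mul_const (by linarith)
  have t2 := (tendsto_rpow_atTop (by norm_num : (0 : ℝ) < 1 / 30)).comp t1
  have t3 : ∀ᶠ δ : ℝ in 𝓝[>] 0, δ < min 1 (min (r / 2) (v / (|CE m r| + 1))) :=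
    nhdsWithin_le_nhds (gt_mem_nhds (by positivity))
  obtain ⟨δ, ⟨⟨h3, h4⟩, h5⟩, δ0⟩ := ((((t1.eventually_ge_atTop 3).and (t2.eventually_ge_atTop
    (DD * (8 / c0 m) * (CG m r + 4 * |kk m|) / (ε * θ')))).and t3).and self_mem_nhdsWithin).exists
  obtain ⟨δ1, h6⟩ := lt_min_iff.1 h5
  obtain ⟨δr, δv⟩ := lt_min_iff.1 h6
  have δ0' : 0 < δ := δ0
  refine ⟨ε, hε, δ, δ0, fun ι _ s hs => ⟨fun z hz ⟨j, hj⟩ => in_ge hs δ1 hr δr.le hz hj,
    fun K hK hK' => ⟨fun T => ?_, max 1 ((9 * ε * DD + 1) * YY m r s * (2 / θ)),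
      fun g f q x hg h => ?_⟩⟩⟩
  · obtain ⟨K', k1, k2, k3⟩ := proper_aux (m := m) hε (by linarith : c0 m / 4 < K) T
    refine ⟨K', k1, fun z hz hw hT => ?_⟩
    by_contra hc
    have hc' := not_le.1 hc
    linarith [k3 _ hc' hw, hs_ge hs δ0' hz hε (by linarith) h3 hw (k2.trans hc'.le)]
  have L : Lf g f (fun y => WW m r s fun j => q j y) x ≤ v := by
    refine (h.Lf_WW hg hs δ1 hr).trans ?_
    rw [lt_div_iff₀ (by positivity)] at δv
    nlinarith
  refine ⟨L, fun hw => ?_⟩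
  have G := h.gn_hs hg hs δ1 hr hε hK hK' hw θ0 h3 h4
  have h1 := one_le_WW (m := m) (r := r) hs.pos h.nn
  have H0 := hs_nn (m := m) (r := r) hs.pos h.nn hε.le (by linarith : c0 m / 4 < K) hw
  have Y := h.gn_WW hg hs δ1 hr
  have g0 := gn_nonneg g (fun y => WW m r s fun j => q j y) x
  set H := P366H.hs m r ε K s fun j => q j x
  set y := gn g (fun y => WW m r s fun j => q j y) x / WW m r s fun j => q j x with hy
  have y0 : 0 ≤ y := div_nonneg g0 (by linarith)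
  have θ1 : θ' ≤ 1 / 200 := min_le_right _ _
  have θ2 : θ' ≤ θ / 2 := min_le_left _ _
  have M : -v ≤ y ^ 2 / 2 + H ^ 2 - 2 * gn g (fun y => P366H.hs m r ε K s fun j => q j y) x := by
    have a1 : θ' * H ^ 2 ≤ 1 / 200 * H ^ 2 := mul_le_mul_of_nonneg_right θ1 (sq_nonneg _)
    nlinarith [sq_nonneg (y - 1800 * (ε * DD)), sq_nonneg (99 * H - 70 * y), sq_nonneg y]
  refine ⟨M, fun l hf hl => ?_, fun hH => ?_⟩
  · have := Rf_add hg hf hl (c_WW (k := 2) hs.pos h.c2 h.nn) h1 hv.le L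
    linarith
  · have a1 : 1 ≤ H := (le_max_left _ _).trans hH
    have a2 : (9 * ε * DD + 1) * YY m r s * (2 / θ) ≤ H := (le_max_right _ _).trans hH
    have a3 : y ≤ YY m r s := (div_le_self g0 h1).trans Y
    rw [← mul_div_assoc, div_le_iff₀ hθ] at a2
    have a4 : (9 * ε * DD + 7 / 10 * H) * y ≤ (9 * ε * DD + 1) * H * YY m r s :=
      mul_le_mul (by nlinarith [mul_pos hε (by linarith : 0 < DD)]) a3 y0 (by positivity)
    have a5 : θ' * H ^ 2 ≤ θ / 2 * H ^ 2 := mul_le_mul_of_nonneg_right θ2 (sq_nonneg _)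
    nlinarith

end Vale.Agent.P366H
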