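import Vale.Agent.P366Q.O.Rows
import Vale.Agent.P366M.Solv

/-!
# P366H: the shield on the closed up double (statement)
-/

open MeasureTheory Metric Filter Topology Set
open scoped ContDiff
open Vale.Agent.P366 Vale.Agent.P366.Stmt Vale.Agent.P366Z

noncomputable section

namespace Vale.Agent.P366M.G

/-- the data before the singular set is shielded: the metric is `cf v g₀`, the positions are
scaled by `l`, and `P` is a first shield on `O` -/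
structure Sf {n : ℕ} {M : Type} [Mfe n M] (g₀ : Fld n M) (v : M → ℝ) (O : Set M) (P : M → ℝ)
    (l Ra Rb q k₀ k₁ : ℝ) : Prop where
  met : Met g₀
  flat : Flat g₀ (l * Ra)
  l0 : 0 < l
  wa : Wa g₀ v
  asy : ∃ a β, Asy v a β
  far : ∀ x, l * Ra ≤ ‖px x‖ → lap g₀ v x ≤ 0 ∧ k₀ ≤ l * v x ^ bb n ∧ l * v x ^ bb n ≤ k₁ ∧
    (‖px x‖ ≤ l * Rb → -(q / l ^ 2 * v x) ≤ lap g₀ v x)
  opn : IsOpen O
  smP : ∀ x ∈ O, CAt ∞ P x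
  P0 : ∀ x ∈ O, 0 ≤ P x
  cls : ∀ c, IsClosed {x | x ∈ O ∧ P x ≤ c}
  big : ∀ θ > (0 : ℝ), ∃ h₁, ∀ x ∈ O, h₁ ≤ P x → gn (cf v g₀) P x ≤ θ * P x ^ 2
  out : ∀ x, l * Rb ≤ ‖px x‖ → x ∈ O ∧ P x = 0

/-- **SHF**: the shield of the singular set -/
def SHF : Prop := ∀ (n : ℕ) (Ra Rb q k₀ k₁ d C : ℝ), 3 ≤ n → 0 < Ra → Ra < Rb → 0 < k₀ → 0 < d →
  ∃ δ > (0 : ℝ), ∀ (M : Type) [Mfe n M] (g₀ : Fld n M) (v : M → ℝ) (O : Set M) (P : M → ℝ) (l : ℝ)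
    (N : ℕ) (s : Fin N → ℝ) (c : Fin N → M → ℝ), Sf g₀ v O P l Ra Rb q k₀ k₁ →
    Cov (cf v g₀) C δ (l * Ra) s c → (∀ x ∈ O, (∀ j, c j x < 1) →
      0 < scal (cf v g₀) x + 9 / 10 * P x ^ 2 - 11 / 5 * gn (cf v g₀) P x ∧ (‖px x‖ ≤ l * Rb →
        d ≤ scal (cf v g₀) x + 9 / 10 * P x ^ 2 - 11 / 5 * gn (cf v g₀) P x)) →
    ∃ f O' h, ∀ θ > (0 : ℝ), Pr g₀ v f O' h (l * Rb) θ

end Vale.Agent.P366M.G
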