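import Vale.Agent.P366H.Shm
import Vale.Agent.P366D.Defs2

/-!
# P366H: the statement SHM
-/

open Set

namespace Vale.Agent.P366H

theorem shm' : P366D.SHM := by
  intro k hk X _ _ g f A S Z _ ι v Λ C θ ε hg hf L hC hθ hε
  obtain ⟨W, w, h, H, h1, h2⟩ := shm (by omega) hg hf L.cA L.cS L.nul L.sub L.mc
    (hC.image L.sub.emb.continuous).isClosed (disjoint_left.2 (by
      rintro _ ⟨z, -, rfl⟩ hz
      exact (L.sub.rng ▸ mem_range_self z : ι z ∈ A \ S).2 hz.2)) hε hθ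
  refine ⟨W, w, h, 1, 3 / 2, by norm_num, H.smW, H.smw, H.W1, h1 _ (by norm_num), fun z hz => ?_,
    H.smh, H.h0, fun z _ => H.sup z, H.pos, H.cl, H.big⟩
  obtain ⟨a, b, c⟩ := h2 z (mem_image_of_mem _ hz)
  exact ⟨a, b.trans_lt one_pos, c⟩

end Vale.Agent.P366H
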