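import Vale.Agent.P366H.Shf2

/-!
# P366H: the shield on the closed up double
-/

open MeasureTheory Metric Filter Topology Set
open scoped ContDiff
open Vale.Agent.P366 Vale.Agent.P366.Stmt Vale.Agent.P366Z
open Vale.Agent.P366H (sm_st hd0 s1 s1_nn s1_zero s1_le DD DD_ge bet bet_nn bet_zero bet_eq sm_bet
  hd_bet)

noncomputable section

namespace Vale.Agent.P366M.G

variable {n : ℕ}

section M0

variable {M : Type} [Mf0 n M] {G : Fld n M} {u W z : M → ℝ} {x : M}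

theorem gn_sum_le (hG : Met G) {ι : Type} (t : Finset ι) {u : ι → M → ℝ} (hu : ∀ j, DAt (u j) x) :
    gn G (fun y => ∑ j ∈ t, u j y) x ≤ ∑ j ∈ t, gn G (u j) x := by
  classical
  induction t using Finset.induction_on with
  | empty => simp [gn_zero fun i => pd_const (0 : ℝ) i x]
  | insert a t ha ih =>
    simp only [Finset.sum_insert ha]
    exact (hG.gn_add_le (pd_add (hu a) (DAt.fun_sum fun j _ => hu j))).trans (add_le_add le_rfl ih)

theorem gn_lin (hG : Met G) {a b : ℝ} (e : ∀ i, pd i u x = a * pd i W x + b * pd i z x) :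
    gn G u x ≤ |a| * gn G W x + |b| * gn G z x := by
  rw [← gn_of_pd (pd_const_mul a), ← gn_of_pd (pd_const_mul b)]
  exact hG.gn_add_le fun i => by rw [e, pd_const_mul, pd_const_mul]

/-- the gradient of the shield -/
theorem gn_hs (hG : Met G) (sW : Smooth W) (sz : Smooth z) (W1 : 1 ≤ W x) (z0 : 0 < z x) {ε : ℝ}
    (ε0 : 0 < ε) (h1 : W x < 3 → z x = 1) (h2 : 2 * gn G z x ≤ ε * bet (W x) / 22) :
    gn G (fun y => ε * bet (W y) * (z y ^ 2)⁻¹) x ≤
      (9 * (ε * DD) + 7 / 10 * (ε * bet (W x) * (z x ^ 2)⁻¹)) * (gn G W x / W x) +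
        (ε * bet (W x) * (z x ^ 2)⁻¹) ^ 2 * z x / 22 := by
  have W0 : 0 < W x := by linarith
  have b0 := bet_nn W0.le
  have d1 := hd_bet W0
  have d2 : HasDerivAt (fun t : ℝ => (t ^ 2)⁻¹) (-(2 * (z x ^ 3)⁻¹)) (z x) :=
    ((hasDerivAt_pow 2 (z x)).inv (by positivity)).congr_deriv (by field_simp; ring)
  have s0 := s1_nn (W x - 2)
  refine (gn_lin hG (W := W) (z := z)
    (a := ε * (s1 (W x - 2) * W x ^ (7 / 10 : ℝ) + 7 / 10 * (bet (W x) / W x)) * (z x ^ 2)⁻¹)
    (b := -(ε * bet (W x) * (2 * (z x ^ 3)⁻¹))) fun i => ?_).trans (add_le_add ?_ ?_)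
  · rw [pd_mul ((d1.differentiableAt.compM (sW.diff x)).const_mul ε)
      (d2.differentiableAt.compM (sz.diff x)), pd_const_mul, pd_comp d1 (sW.diff x),
      pd_comp d2 (sz.diff x)]
    ring
  · have k : s1 (W x - 2) * (W x ^ (7 / 10 : ℝ) * W x) * (z x ^ 2)⁻¹ ≤ DD * 9 := by
      rcases lt_or_ge (W x) 3 with h | h
      · rw [h1 h, one_pow, inv_one, mul_one]
        have := Real.rpow_le_self_of_one_le W1 (by norm_num : (7 / 10 : ℝ) ≤ 1)
        exact mul_le_mul (s1_le _) (by nlinarith) (by positivity) (by linarith [DD_ge])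
      · rw [s1_zero (.inr (by linarith)), zero_mul, zero_mul]
        linarith [DD_ge]
    rw [abs_of_nonneg (by positivity)]
    refine le_of_eq_of_le (b := (ε * (s1 (W x - 2) * (W x ^ (7 / 10 : ℝ) * W x) * (z x ^ 2)⁻¹) +
      7 / 10 * (ε * bet (W x) * (z x ^ 2)⁻¹)) * (gn G W x / W x)) (by field_simp)
      (mul_le_mul_of_nonneg_right ?_ (div_nonneg (gn_nonneg _ _ _) W0.le))
    nlinarith [mul_le_mul_of_nonneg_left k ε0.le]
  · rw [abs_neg, abs_of_nonneg (by positivity)]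
    refine le_of_eq_of_le (b := ε * bet (W x) * (z x ^ 3)⁻¹ * (2 * gn G z x)) (by ring)
      ((mul_le_mul_of_nonneg_left h2 (by positivity)).trans_eq ?_)
    field_simp

theorem Rf_log (hG : Met G) (sW : Smooth W) (W1 : ∀ x, 1 ≤ W x) (x : M) :
    P366D.Rf G (fun y => Real.log (W y)) x =
      scal G x - 2 * (lap G W x / W x) + (gn G W x / W x) ^ 2 := by
  have W0 : W x ≠ 0 := by linarith [W1 x]
  have d := Real.hasDerivAt_log W0
  rw [P366D.Rf, hG.lap_comp (sW.c2 x) (Real.contDiffAt_log.2 W0), ip_comp d d (sW.diff x)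
    (sW.diff x), Real.deriv_log', deriv_inv, div_pow, hG.gn_sq]
  field_simp
  ring

end M0

theorem ex_W0 {K ε : ℝ} (K0 : 0 ≤ K) (ε0 : 0 < ε) :
    ∃ W₀ ≥ (3 : ℝ), ∀ W ≥ W₀, 2 * (K * √W) ≤ ε * bet W / 22 := by
  refine ⟨max 3 ((44 * K / ε) ^ 5), le_max_left _ _, fun W hW => ?_⟩
  have h3 := le_of_max_le_left hW
  have W0 : 0 < W := by linarith
  have h1 := Real.rpow_le_rpow (by positivity) (le_of_max_le_right hW)
    (by norm_num : (0 : ℝ) ≤ ((5 : ℕ) : ℝ)⁻¹)
  rw [Real.pow_rpow_inv_natCast (by positivity) (by norm_num), div_le_iff₀ ε0] at h1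
  rw [bet_eq h3, Real.sqrt_eq_rpow, show (7 / 10 : ℝ) = 1 / 2 + ((5 : ℕ) : ℝ)⁻¹ by norm_num,
    Real.rpow_add W0]
  nlinarith [mul_le_mul_of_nonneg_left h1 (Real.rpow_pos_of_pos W0 (1 / 2)).le]

theorem ex_h1 {θ : ℝ} (θ0 : 0 < θ) (A B : ℝ) : ∃ h₁ > (0 : ℝ), ∀ h ≥ h₁, A + B * h ≤ θ * h ^ 2 := by
  refine ⟨max 1 ((|A| + |B|) / θ), by positivity, fun h hh => ?_⟩
  have h1 := le_of_max_le_left hh
  have h2 := (div_le_iff₀ θ0).1 (le_of_max_le_right hh)
  nlinarith [le_abs_self A, le_abs_self B, abs_nonneg A, abs_nonneg B,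
    mul_le_mul_of_nonneg_right h2 (by linarith : 0 ≤ h)]

variable {M : Type} [Mfe n M] {G g : Fld n M} {v P W z : M → ℝ} {O : Set M}

/-- the function which vanishes on the boundary of the shielded domain -/
theorem exz (hG : Met G) {C δ R : ℝ} {N : ℕ} {s : Fin N → ℝ} {c : Fin N → M → ℝ}
    (H : Cov G C δ R s c) (C0 : 0 ≤ C) (W1 : ∀ x, 1 ≤ W x)
    (hW : ∀ x, ∑ j, (if 3 / 4 ≤ c j x then (s j ^ 2)⁻¹ else 0) ≤ 2 * W x) :
    ∃ z, Smooth z ∧ ∀ x, 0 ≤ z x ∧ z x ≤ 1 ∧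
      (0 < z x → (∀ j, c j x < 1) ∧ gn G z x ≤ 24 * DD ^ 2 * C * √(W x)) ∧
      (2 * W x < (δ ^ 2)⁻¹ → z x = 1 ∧ gn G z x = 0) := by
  have sτ : ∀ j, Smooth fun y => sw 3 (c j y) := fun j => (sm_sw 3).compM (H.sm j)
  obtain ⟨t, ht⟩ : ∃ t : M → ℝ, t = fun y => ∑ j, sw 3 (c j y) ^ 2 := ⟨_, rfl⟩
  have st : Smooth t := ht ▸ CD.sum fun j _ => CD.pow (sτ j) 2
  have D0 : 0 < DD := by linarith [DD_ge]
  have d : ∀ a, HasDerivAt (fun a => 1 - Real.smoothTransition (2 * a - 1))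
      (-(s1 (2 * a - 1) * 2)) a := fun a => ((hd0 _).comp a
    (by simpa using ((hasDerivAt_id a).const_mul 2).sub_const 1)).const_sub 1
  have e : ∀ x, gn G (fun y => 1 - Real.smoothTransition (2 * t y - 1)) x =
      s1 (2 * t x - 1) * 2 * gn G t x := fun x => by
    rw [gn_comp (d _) (st.diff x), abs_neg, abs_of_nonneg (mul_nonneg (s1_nn _) zero_le_two)]
  refine ⟨fun y => 1 - Real.smoothTransition (2 * t y - 1), CD.sub cd_const (sm_st.compM
    (CD.sub (CD.mul cd_const st) cd_const)), fun x => ⟨sub_nonneg.2 (Real.smoothTransition.le_one _),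
      sub_le_self _ (Real.smoothTransition.nonneg _), fun h => ?_, fun h => ?_⟩⟩
  · have t1 : t x < 1 := by
      by_contra k
      dsimp only at h
      rw [Real.smoothTransition.one_of_one_le (by linarith)] at h
      linarith
    refine ⟨fun j => ?_, ?_⟩
    · by_contra k
      have := Finset.single_le_sum (f := fun j => sw 3 (c j x) ^ 2) (fun j _ => sq_nonneg _)
        (Finset.mem_univ j)
      rw [sw_one (by linarith)] at this
      rw [ht] at t1
      linarith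
    have l1 : 1 ≤ √(W x) := Real.one_le_sqrt.2 (W1 x)
    have l2 : √(W x) ^ 2 = W x := Real.sq_sqrt (by linarith [W1 x])
    have k1 : gn G t x ≤ ∑ j, 4 * DD * C * (√(W x) * sw 3 (c j x) ^ 2 +
        (√(W x))⁻¹ * if 3 / 4 ≤ c j x then (s j ^ 2)⁻¹ else 0) := by
      rw [ht]
      refine (gn_sum_le hG _ fun j => ((sτ j).diff x).fun_pow 2).trans
        (Finset.sum_le_sum fun j _ => ?_)
      rw [gn_of_pd (pd_pow ((sτ j).diff x) 2), abs_of_nonneg (by have := sw_nn 3 (c j x); positivity)]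
      split_ifs with k
      · refine (mul_le_mul_of_nonneg_left (gn_sw_le (H.sm j) 3 (H.gr j x))
          (by have := sw_nn 3 (c j x); positivity)).trans (le_of_eq_of_le
            (b := 4 * DD * C * (2 * sw 3 (c j x) * (s j)⁻¹)) (by push_cast; ring)
              (mul_le_mul_of_nonneg_left ?_ (by positivity)))
        have := mul_nonneg (inv_pos.2 (by linarith : 0 < √(W x))).le
          (sq_nonneg (√(W x) * sw 3 (c j x) - (s j)⁻¹))
        have i1 : (√(W x))⁻¹ * √(W x) = 1 := inv_mul_cancel₀ (by linarith)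
        rw [← inv_pow]
        nlinarith [congrArg (· * (√(W x) * sw 3 (c j x) ^ 2)) i1,
          congrArg (· * (sw 3 (c j x) * (s j)⁻¹)) i1]
      · rw [gn_sw_zero (H.sm j) (by linarith), mul_zero]
        positivity
    rw [← Finset.mul_sum, Finset.sum_add_distrib, ← Finset.mul_sum, ← Finset.mul_sum] at k1
    have k2 := mul_le_mul_of_nonneg_left (hW x) (by positivity : 0 ≤ (√(W x))⁻¹)
    have k3 : (√(W x))⁻¹ * (2 * W x) = 2 * √(W x) := by
      nth_rw 2 [← l2]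
      field_simp
    have k4 : √(W x) * ∑ j, sw 3 (c j x) ^ 2 ≤ √(W x) :=
      mul_le_of_le_one_right (by linarith) (by rw [ht] at t1; exact t1.le)
    have k5 : gn G t x ≤ 4 * DD * C * (3 * √(W x)) :=
      k1.trans (mul_le_mul_of_nonneg_left (by linarith) (by positivity))
    rw [e]
    exact (mul_le_mul (by linarith [s1_le (2 * t x - 1)] : _ ≤ DD * 2) k5 (gn_nonneg _ _ _)
      (by positivity)).trans_eq (by ring)
  · have t0 : t x = 0 := by
      rw [ht]
      refine Finset.sum_eq_zero fun j _ => ?_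
      by_cases k : 3 / 4 ≤ c j x
      · have := Finset.single_le_sum (f := fun j => if 3 / 4 ≤ c j x then (s j ^ 2)⁻¹ else 0)
          (fun j _ => by positivity) (Finset.mem_univ j)
        have s0 := (H.s0 j).1
        have : (δ ^ 2)⁻¹ ≤ (s j ^ 2)⁻¹ := by gcongr; exact (H.s0 j).2
        simp only [if_pos k] at *
        linarith [hW x]
      · rw [sw_zero (by linarith), zero_pow two_ne_zero]
    dsimp only
    rw [e, t0, s1_zero (.inl (by norm_num)), Real.smoothTransition.zero_of_nonpos (by norm_num)]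
    simp

theorem bd_on {K : Set M} {f : M → ℝ} (hK : IsClosed K) (hf : ContinuousOn f K) (R : ℝ) :
    ∃ A ≥ (0 : ℝ), ∀ x ∈ K, ‖px x‖ ≤ R → f x ≤ A := by
  obtain ⟨A, hA⟩ := ((isCompact_px M R).inter_left hK).exists_bound_of_continuousOn
    (hf.mono inter_subset_left)
  exact ⟨|A|, abs_nonneg A, fun x h1 h2 => ((le_abs_self _).trans (hA x ⟨h1, h2⟩)).trans
    (le_abs_self A)⟩

/-- the two shields together -/
theorem shf_fin {l Ra Rb q k₀ k₁ d ε r : ℝ} (H : Sf g v O P l Ra Rb q k₀ k₁) (ρ0 : l * Ra ≤ l * Rb)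
    (r0 : r < l * Rb) (d0 : 0 < d) (ε0 : 0 < ε) (hε : 400 * (ε * DD) ^ 2 ≤ d / 4) (sW : Smooth W)
    (sz : Smooth z) (W1 : ∀ x, 1 ≤ W x) (lW : ∀ x, lap (cf v g) W x ≤ d / 8)
    (oW : ∀ x, r ≤ ‖px x‖ → W x = 1) (z1 : ∀ x, z x ≤ 1) (h1 : ∀ x, W x < 3 → z x = 1)
    (h2 : ∀ x, 0 < z x → 2 * gn (cf v g) z x ≤ ε * bet (W x) / 22) (hσ : ∀ x ∈ O, 0 < z x →
      0 < scal (cf v g) x + 9 / 10 * P x ^ 2 - 11 / 5 * gn (cf v g) P x ∧ (‖px x‖ ≤ l * Rb →
        d ≤ scal (cf v g) x + 9 / 10 * P x ^ 2 - 11 / 5 * gn (cf v g) P x)) {θ : ℝ} (θ0 : 0 < θ) :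
    Pr g v (fun x => Real.log (W x)) {x | x ∈ O ∧ 0 < z x}
      (fun x => P x + ε * bet (W x) * (z x ^ 2)⁻¹) (l * Rb) θ := by
  have hG := H.met.cf H.wa.wt.sm H.wa.wt.pos
  have W0 : ∀ x, 0 < W x := fun x => by linarith [W1 x]
  have sb : ∀ x, CAt ∞ (fun x => ε * bet (W x)) x := fun x =>
    cAt_const.mul ((sm_bet (W0 x)).compM ((cd_iff le_rfl).1 sW x))
  obtain ⟨S, hS⟩ : ∃ S : M → ℝ, S = fun x => ε * bet (W x) * (z x ^ 2)⁻¹ := ⟨_, rfl⟩
  have sS : ∀ x, 0 < z x → CAt ∞ S x := fun x h =>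
    hS ▸ (sb x).mul ((((cd_iff le_rfl).1 sz x).pow 2).inv (by positivity))
  have S0 : ∀ x, 0 ≤ S x := fun x => by
    have := bet_nn (W0 x).le
    simp only [hS]
    positivity
  have gS : ∀ x, 0 < z x → gn (cf v g) S x ≤ (9 * (ε * DD) + 7 / 10 * S x) *
      (gn (cf v g) W x / W x) + S x ^ 2 * z x / 22 := fun x h =>
    hS ▸ gn_hs hG sW sz (W1 x) h ε0 (h1 x) (h2 x h)
  have gh : ∀ x ∈ O, 0 < z x → gn (cf v g) (fun x => P x + S x) x ≤
      gn (cf v g) P x + gn (cf v g) S x := fun x a b => hG.gn_add_le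
    (pd_add ((H.smP x a).differentiableAt (by simp)) ((sS x b).differentiableAt (by simp)))
  have oS : ∀ x, r ≤ ‖px x‖ → S x = 0 := fun x h => by
    simp only [hS, oW x h, bet_zero one_le_two, mul_zero, zero_mul]
  rw [show (fun x => P x + ε * bet (W x) * (z x ^ 2)⁻¹) = fun x => P x + S x by rw [hS]]
  refine ⟨H.met, H.flat.mono ρ0, H.wa.wt.sm, H.wa.wt.pos, CD.log sW fun x => (W0 x).ne',
    H.opn.inter (isOpen_lt continuous_const sz.cont), fun x h => (H.smP x h.1).add (sS x h.2),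
    fun x h => add_nonneg (H.P0 x h.1) (S0 x), fun T => ?_, fun x h => ?_, ?_, fun x h => ?_⟩
  · have μ0 : 0 < ε / (|T| + ε) := by positivity
    have e : {x | x ∈ {x | x ∈ O ∧ 0 < z x} ∧ P x + S x ≤ T} = ({x | x ∈ O ∧ P x ≤ T} ∩
        {x | ε / (|T| + ε) ≤ z x}) ∩ (fun x => P x + S x) ⁻¹' Iic T := by
      ext x
      refine ⟨fun ⟨⟨a, b⟩, k⟩ => ⟨⟨⟨a, by linarith [S0 x]⟩, ?_⟩, k⟩,
        fun ⟨⟨a, b⟩, k⟩ => ⟨⟨a.1, μ0.trans_le b⟩, k⟩⟩
      show _ ≤ z x
      rw [div_le_iff₀ (by positivity)]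
      rcases lt_or_ge (W x) 3 with h | h
      · rw [h1 x h]
        linarith [abs_nonneg T]
      · have k1 : 1 ≤ bet (W x) := by
          rw [bet_eq h]
          exact Real.one_le_rpow (W1 x) (by norm_num)
        have k2 : S x * z x ^ 2 = ε * bet (W x) := by
          simp only [hS]
          field_simp
        have k3 : S x ≤ |T| := by linarith [H.P0 x a, le_abs_self T]
        nlinarith [mul_le_mul_of_nonneg_left k1 ε0.le, mul_le_mul_of_nonneg_right k3 b.le,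
          mul_nonneg (mul_nonneg (S0 x) b.le) (sub_nonneg.2 (z1 x)), mul_pos b ε0]
    rw [e]
    exact ContinuousOn.preimage_isClosed_of_isClosed (fun x hx => ((H.smP x hx.1.1).add
      (sS x (μ0.trans_le hx.2))).continuousAt.continuousWithinAt)
      ((H.cls T).inter (isClosed_le continuous_const sz.cont)) isClosed_Iic
  · obtain ⟨p1, p2⟩ := hσ x h.1 h.2
    rw [Rf_log hG sW W1]
    rcases le_or_gt ‖px x‖ (l * Rb) with k | k
    · have k1 : lap (cf v g) W x / W x ≤ d / 8 :=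
        (div_le_iff₀ (W0 x)).2 ((lW x).trans (le_mul_of_one_le_right (by positivity) (W1 x)))
      have k2 := mul_le_of_le_one_right (sq_nonneg (S x)) (z1 x)
      nlinarith [p2 k, gh x h.1 h.2, gS x h.2, mul_nonneg (H.P0 x h.1) (S0 x),
        sq_nonneg (S x - 77 / 80 * (gn (cf v g) W x / W x)),
        sq_nonneg (gn (cf v g) W x / W x - 39 * (ε * DD)), sq_nonneg (gn (cf v g) W x / W x),
        sq_nonneg (ε * DD)]
    · have k' := r0.trans k
      have e1 := ev_of_out oW k'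
      rw [lap_congr e1, gn_congr e1, lap_const, gn_zero fun i => pd_const _ i x,
        gn_congr (u' := P) ((ev_of_out oS k').mono fun y hy => by simp only [hy, add_zero]),
        oS x k'.le]
      simpa using p1
  · obtain ⟨h₀, b0⟩ := H.big (θ / 2) (by positivity)
    obtain ⟨A, A0, hA⟩ := bd_on (f := gn (cf v g) P) (H.cls h₀) (fun x hx =>
      (hG.cAt_ip (k := 0) ((H.smP x hx.1).of_le two_le_oo) ((H.smP x hx.1).of_le two_le_oo)
        (by norm_num) (by simp) le_rfl).continuousAt.sqrt.continuousWithinAt) (l * Rb)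
    obtain ⟨Y, Y0, hY⟩ := bd_on (f := fun x => gn (cf v g) W x / W x) isClosed_univ
      ((hG.cont_gn sW.one).div sW.cont fun x => (W0 x).ne').continuousOn (l * Rb)
    obtain ⟨K, K0, hK⟩ := bd_on (f := fun x => ε * bet (W x)) isClosed_univ
      (fun x _ => (sb x).continuousAt.continuousWithinAt) (l * Rb)
    obtain ⟨h₁, p1, b1⟩ := ex_h1 (θ := θ / 4) (by positivity)
      (A + 9 * (ε * DD) * Y + (K * (θ ^ 2)⁻¹) ^ 2) (7 / 10 * Y)
    refine ⟨h₁, fun x h k => ?_⟩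
    have x1 : ‖px x‖ ≤ l * Rb := by
      by_contra k'
      rw [(H.out x (not_le.1 k').le).2, oS x (r0.trans (not_le.1 k')).le] at k
      linarith
    have P0 := H.P0 x h.1
    have S1 := S0 x
    have D0 : 0 < ε * DD := mul_pos ε0 (by linarith [DD_ge])
    have k1 : gn (cf v g) P x ≤ θ / 2 * (P x + S x) ^ 2 + A := by
      rcases le_total (P x) h₀ with a | a
      · exact (hA x ⟨h.1, a⟩ x1).trans (le_add_of_nonneg_left (by positivity))
      · refine (b0 x h.1 a).trans (le_add_of_le_of_nonneg ?_ A0)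
        gcongr
        linarith
    have k2 : S x ^ 2 * z x / 22 ≤ θ / 4 * (P x + S x) ^ 2 + (K * (θ ^ 2)⁻¹) ^ 2 := by
      rcases le_total (z x) θ with a | a
      · refine le_add_of_le_of_nonneg ?_ (sq_nonneg _)
        nlinarith [mul_le_mul_of_nonneg_left a (sq_nonneg (S x)), mul_nonneg θ0.le (sq_nonneg (S x)),
          mul_nonneg θ0.le (mul_nonneg P0 S1), mul_nonneg θ0.le (sq_nonneg (P x))]
      · have a1 : S x ≤ K * (θ ^ 2)⁻¹ := by
          simp only [hS]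
          exact mul_le_mul (hK x trivial x1) (by gcongr) (by positivity) K0
        refine le_add_of_nonneg_of_le (by positivity) ?_
        nlinarith [pow_le_pow_left₀ S1 a1 2, mul_le_of_le_one_right (sq_nonneg (S x)) (z1 x),
          sq_nonneg (S x)]
    have k3 := mul_le_mul_of_nonneg_left (hY x trivial x1)
      (by positivity : 0 ≤ 9 * (ε * DD) + 7 / 10 * S x)
    nlinarith [gh x h.1 h.2, gS x h.2, b1 _ k, mul_nonneg Y0 P0]
  · have k := r0.le.trans h
    refine ⟨⟨(H.out x h).1, ?_⟩, ?_, ?_⟩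
    · rw [h1 x (by linarith [oW x k])]
      exact one_pos
    · simp only [(H.out x h).2, oS x k, add_zero]
    · simp only [oW x k, Real.log_one]

/-- **SHF** -/
theorem shf_of (hS : SUBS) : SHF := by
  intro n R Rb q k₀ k₁ d C hn R0 hR k0 d0
  obtain ⟨w, w0, rfl⟩ : ∃ w > (0 : ℝ), Rb = R + 4 * w := ⟨(Rb - R) / 4, by linarith, by ring⟩
  have D0 : 0 < DD := by linarith [DD_ge]
  have ε0 : 0 < √d / (40 * DD) := by positivity
  obtain ⟨δ, δ0, h1⟩ := wgt hS hn q k₁ R0 w0 k0 (by positivity : 0 < d / 8) (abs_nonneg C)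
  obtain ⟨W₀, W3, h2⟩ := ex_W0 (by positivity : 0 ≤ 24 * DD ^ 2 * |C|) ε0
  refine ⟨min δ (2 * W₀)⁻¹, by positivity, fun M _ g v O P l N s c H hc hσ => ?_⟩
  obtain ⟨W, sW, hW⟩ := h1 M g v O P l N s c H (hc.mono (min_le_left _ _))
  obtain ⟨z, sz, hz⟩ := exz (H.met.cf H.wa.wt.sm H.wa.wt.pos) (hc.mono (min_le_right _ _))
    (abs_nonneg C) (fun x => (hW x).1) fun x => (hW x).2.2.2
  have l0 := H.l0
  have k : ∀ x, W x < W₀ → z x = 1 ∧ gn (cf v g) z x = 0 := fun x h => (hz x).2.2.2 (by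
    rw [inv_pow, inv_inv]
    nlinarith)
  refine ⟨_, _, _, fun θ θ0 => shf_fin H (r := l * (R + 3 * w)) (by nlinarith) (by nlinarith) d0 ε0
    (le_of_eq ?_) sW sz (fun x => (hW x).1) (fun x => (hW x).2.1) (fun x => (hW x).2.2.1)
    (fun x => (hz x).2.1) (fun x h => (k x (h.trans_le W3)).1) (fun x h => ?_)
    (fun x a b => hσ x a ((hz x).2.2.1 b).1) θ0⟩
  · rw [div_mul_eq_mul_div, mul_div_mul_right _ _ D0.ne', div_pow, Real.sq_sqrt d0.le]
    ring
  · rcases lt_or_ge (W x) W₀ with a | a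
    · have := bet_nn (t := W x) (by linarith [(hW x).1])
      rw [(k x a).2, mul_zero]
      positivity
    · linarith [h2 _ a, ((hz x).2.2.1 h).2]

end Vale.Agent.P366M.G
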