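import Vale.Agent.P366H.Fn
import Vale.Agent.P366M.Calc

/-!
# P366H: squared distance functions on a manifold
-/

open Metric Filter Topology Set
open scoped ContDiff
open Vale.Agent.P366 Vale.Agent.P366.Stmt

noncomputable section

namespace Vale.Agent.P366H

variable {n : ℕ}

/-- the quadratic form -/
def qf (B : Fin n → Fin n → ℝ) (ξ : Fin n → ℝ) : ℝ := ∑ i, ∑ j, B i j * ξ i * ξ j

theorem qf_smul (B : Fin n → Fin n → ℝ) (a : ℝ) (ξ : Fin n → ℝ) :
    qf B (a • ξ) = a ^ 2 * qf B ξ := by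
  simp only [qf, Finset.mul_sum, Pi.smul_apply, smul_eq_mul]
  exact Finset.sum_congr rfl fun i _ => Finset.sum_congr rfl fun j _ => by ring

theorem ev_hom {T : Type} [TopologicalSpace T] {Φ : T → (Fin n → ℝ) → ℝ} {t₀ : T}
    (hc : Continuous fun z : T × (Fin n → ℝ) => Φ z.1 z.2)
    (hh : ∀ t a ξ, Φ t (a • ξ) = a ^ 2 * Φ t ξ) (h0 : ∀ ξ, ξ ≠ 0 → 0 < Φ t₀ ξ) :
    ∀ᶠ t in 𝓝 t₀, ∀ ξ, 0 ≤ Φ t ξ := by
  have k := (isCompact_sphere (0 : Fin n → ℝ) 1).eventually_forall_of_forall_eventually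
    (x₀ := t₀) (P := fun t ξ => 0 < Φ t ξ) fun ξ hξ =>
      hc.continuousAt.eventually (lt_mem_nhds (h0 ξ fun e => by simp [e] at hξ))
  refine k.mono fun t ht ξ => ?_
  by_cases hξ : ξ = 0
  · have := hh t 0 ξ
    rw [zero_smul] at this
    rw [hξ, this]; simp
  have h1 := norm_pos_iff.2 hξ
  have h2 := ht (‖ξ‖⁻¹ • ξ) (by simp [norm_smul, h1.ne'])
  rw [hh] at h2
  exact ((mul_pos_iff_of_pos_left (by positivity)).1 h2).le

theorem sum_sq (ξ : E n) : ∑ i, ξ i ^ 2 = ‖ξ‖ ^ 2 := by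
  rw [EuclideanSpace.real_norm_sq_eq]

/-- the quadratic function with centre `c` -/
def qc (B : Fin n → Fin n → ℝ) (c y : E n) : ℝ := qf B fun i => y i - c i

theorem sm_qc (B : Fin n → Fin n → ℝ) (c : E n) : ContDiff ℝ ∞ (qc B c) := by
  have := fun i : Fin n => P366Z.contDiff_coord (m := ∞) i
  unfold qc qf
  fun_prop

theorem pd_lin (b : Fin n → ℝ) (c y : E n) (i : Fin n) :
    pd i (fun y => ∑ j, b j * (y j - c j)) y = b i := by
  have h := fun i : Fin n => (P366Z.contDiff_coord (m := 1) i).differentiable (by simp) y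
  rw [P366Z.pd_sum _ fun j _ => ((h j).sub_const _).const_mul _]
  simp [P366Z.pd_const_mul, P366Z.pd_sub_const, P366Z.pd_coord]

theorem pd_qc {B : Fin n → Fin n → ℝ} (hB : ∀ i j, B i j = B j i) (c : E n) (i : Fin n) :
    pd i (qc B c) = fun y => 2 * ∑ j, B i j * (y j - c j) := by
  funext y
  have h := fun i : Fin n => (P366Z.contDiff_coord (m := 1) i).differentiable (by simp) y
  have e : qc B c = fun y => ∑ a, (∑ b, B a b * (y b - c b)) * (y a - c a) := by
    funext y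
    simp only [qc, qf, Finset.sum_mul]
    exact Finset.sum_congr rfl fun a _ => Finset.sum_congr rfl fun b _ => by ring
  have h2 : ∀ a, DifferentiableAt ℝ (fun y : E n => ∑ b, B a b * (y b - c b)) y := fun a =>
    DifferentiableAt.fun_sum fun b _ => ((h b).sub_const _).const_mul _
  rw [e, P366Z.pd_sum _ fun a _ => (h2 a).fun_mul ((h a).sub_const _)]
  simp only [fun a => P366Z.pd_mul (h2 a) ((h a).sub_const (c a)) i, pd_lin, P366Z.pd_sub_const,
    P366Z.pd_coord, Finset.sum_add_distrib, mul_ite, mul_one, mul_zero, Finset.sum_ite_eq,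
    Finset.mem_univ, if_true, hB _ i]
  ring

/-- the quadratic function of the metric at `p` is good near `p` -/
theorem qc_good {G : Field n} (hG : P366Z.Met G) (p : E n) {η : ℝ} (hη : 0 < η) :
    ∀ᶠ t : E n × E n in 𝓝 (p, p),
      P366Z.ip G (qc (G p) t.2) (qc (G p) t.2) t.1 ≤ 4 * (1 + η) * qc (G p) t.2 t.1 ∧
      ∀ ξ, 2 * (1 - η) * qf (G t.1) ξ ≤ qf (hess G (qc (G p) t.2) t.1) ξ := by
  have c1 := fun i j => (hG.sm i j).continuous
  have c2 := fun i j => (hG.sm_up i j).continuous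
  have c3 := fun k i j => (hG.sm_chr k i j).continuous
  have h1 : ∀ᶠ y in 𝓝 p, ∀ ξ, 0 ≤ (1 + η) * qf (G p) ξ -
      qf (fun i j => up G i j y) fun i => ∑ j, G p i j * ξ j := by
    refine ev_hom (by unfold qf; fun_prop) (fun t a ξ => ?_) fun ξ hξ => ?_
    · have : (fun i => ∑ j, G p i j * (a • ξ) j) = a • fun i => ∑ j, G p i j * ξ j := by
        funext i; simp [Finset.mul_sum, mul_left_comm]
      rw [this, qf_smul, qf_smul]; ring
    · have e : (qf (fun i j => up G i j p) fun i => ∑ j, G p i j * ξ j) = qf (G p) ξ := by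
        have := fun i => hG.up_g_mul p i ξ
        calc _ = ∑ j, (∑ i, up G j i p * ∑ l, G p i l * ξ l) * ∑ l, G p j l * ξ l := by
              unfold qf
              rw [Finset.sum_comm]
              simp only [Finset.sum_mul]
              exact Finset.sum_congr rfl fun j _ => Finset.sum_congr rfl fun i _ => by
                rw [hG.up_sy]
          _ = _ := by
              simp only [this]
              simp only [qf, Finset.mul_sum]
              exact Finset.sum_congr rfl fun j _ => Finset.sum_congr rfl fun i _ => by ring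
      have := hG.g_pos p hξ
      rw [e]
      unfold qf
      nlinarith
  have h2 : ∀ᶠ t : E n × E n in 𝓝 (p, p), ∀ ξ, 0 ≤ qf (fun i j => 2 * G p j i -
      ∑ k, chr G k i j t.1 * (2 * ∑ l, G p k l * (t.1 l - t.2 l))) ξ -
        2 * (1 - η) * qf (G t.1) ξ := by
    refine ev_hom (by unfold qf; fun_prop) (fun t a ξ => by rw [qf_smul, qf_smul]; ring)
      fun ξ hξ => ?_
    have := hG.g_pos p hξ
    have e : qf (fun i j => 2 * G p j i) ξ = 2 * qf (G p) ξ := by
      simp only [qf, Finset.mul_sum]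
      exact Finset.sum_congr rfl fun j _ => Finset.sum_congr rfl fun i _ => by
        rw [hG.sy p i j]; ring
    simp only [sub_self, mul_zero, Finset.sum_const_zero, sub_zero, e]
    unfold qf
    nlinarith
  filter_upwards [(continuous_fst.tendsto (p, p)).eventually h1, h2] with t k1 k2
  refine ⟨?_, fun ξ => ?_⟩
  · have e := qf_smul (fun i j => up G i j t.1) 2 fun i => ∑ j, G p i j * (t.1 j - t.2 j)
    have := k1 fun i => t.1 i - t.2 i
    unfold P366Z.ip
    simp only [pd_qc (hG.sy p)]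
    refine le_trans (le_of_eq e) ?_
    unfold qc
    linarith
  · have e : hess G (qc (G p) t.2) t.1 = fun i j => 2 * G p j i -
        ∑ k, chr G k i j t.1 * (2 * ∑ l, G p k l * (t.1 l - t.2 l)) := by
      funext i j
      unfold hess
      simp only [pd_qc (hG.sy p), P366Z.pd_const_mul, pd_lin]
    rw [e]
    linarith [k2 ξ]

theorem qc_bd {G : Field n} (hG : P366Z.Met G) (p : E n) : ∃ a > (0 : ℝ), ∀ c y,
    a * ‖y - c‖ ^ 2 ≤ qc (G p) c y ∧ a * qc (G p) c y ≤ ‖y - c‖ ^ 2 := by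
  have h1 : ∀ᶠ t in 𝓝 (0 : ℝ), ∀ ξ, 0 ≤ qf (G p) ξ - t * ∑ i, ξ i ^ 2 := by
    refine ev_hom (by unfold qf; fun_prop) (fun t a ξ => ?_) fun ξ hξ => ?_
    · simp only [qf_smul, Pi.smul_apply, smul_eq_mul, mul_pow, ← Finset.mul_sum]; ring
    · simpa [qf] using hG.g_pos p hξ
  have h2 : ∀ᶠ t in 𝓝 (0 : ℝ), ∀ ξ, 0 ≤ ∑ i, ξ i ^ 2 - t * qf (G p) ξ := by
    refine ev_hom (by unfold qf; fun_prop) (fun t a ξ => ?_) fun ξ hξ => ?_
    · simp only [qf_smul, Pi.smul_apply, smul_eq_mul, mul_pow, ← Finset.mul_sum]; ring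
    · obtain ⟨i, hi⟩ := Function.ne_iff.1 hξ
      have := Finset.single_le_sum (f := fun i => ξ i ^ 2) (fun i _ => sq_nonneg _)
        (Finset.mem_univ i)
      have : 0 < ξ i ^ 2 := sq_pos_of_ne_zero hi
      linarith
  obtain ⟨a, ⟨k1, k2⟩, a0⟩ := (((h1.and h2).filter_mono nhdsWithin_le_nhds).and
    (self_mem_nhdsWithin (s := Ioi 0))).exists
  refine ⟨a, a0, fun c y => ?_⟩
  have e := sum_sq (y - c)
  have l1 := k1 fun i => y i - c i
  have l2 := k2 fun i => y i - c i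
  simp only [PiLp.sub_apply] at e
  rw [e] at l1 l2
  unfold qc
  constructor <;> linarith

open Vale.Agent.P366M

variable {X : Type} [Mf0 n X]

open Classical in
/-- the extension by zero of a function in a chart -/
def ex0 (e : Ch n X) (F : E n → ℝ) (x : X) : ℝ := if x ∈ e.source then F (e x) else 0

theorem loc_ex0 {e : Ch n X} (he : e ∈ At X) (F : E n → ℝ) : loc e (ex0 e F) = F := by
  funext y
  rw [loc_apply, ex0, if_pos (symm_mem he y), right_inv he]

theorem ex0_out {e : Ch n X} {F : E n → ℝ} {K : Set (E n)} (hK : ∀ y ∉ K, F y = 0) {x : X}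
    (hx : x ∉ e.symm '' K) : ex0 e F x = 0 := by
  unfold ex0
  split_ifs with h
  · exact hK _ fun k => hx ⟨_, k, e.left_inv h⟩
  · rfl

theorem cd_ex0 {m : WithTop ℕ∞} (hm : m ≤ ∞) {e : Ch n X} (he : e ∈ At X) {F : E n → ℝ}
    (hF : ContDiff ℝ m F) {K : Set (E n)} (cK : IsCompact K) (hK : ∀ y ∉ K, F y = 0) :
    CD m (ex0 e F) := by
  refine cd_of_cAt hm fun x => ?_
  by_cases hx : x ∈ e.symm '' K
  · obtain ⟨y, -, rfl⟩ := hx
    exact cAt_of_loc hm he (by rw [loc_ex0 he]; exact hF.contDiffAt)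
  · refine (cAt_const (c := 0)).congr_of_eventuallyEq ?_
    filter_upwards [(cK.image (cont_symm he)).isClosed.isOpen_compl.mem_nhds hx] with z hz
    exact ex0_out hK hz

/-- a substitute for the square of the distance to a point, up to the distance `r` -/
structure Aq (g : Fld n X) (η r : ℝ) (Q : X → ℝ) : Prop where
  sm : P366M.Smooth Q
  nn : ∀ x, 0 ≤ Q x
  gr : ∀ x, Q x < r ^ 2 → ip g Q Q x ≤ 4 * (1 + η) * Q x
  he : ∀ x, Q x < r ^ 2 → ∀ ξ, 2 * (1 - η) * qf (g x) ξ ≤ qf (P366M.hess g Q x) ξ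

theorem qf_rep {e : Ch n X} (he : e ∈ At X) (T : Fld n X) (y : E n) (ξ : Fin n → ℝ) :
    qf (rep e T y) (fun i => repV e (fun i _ => ξ i) i y) = qf (T (e.symm y)) ξ :=
  quad_rep he T _ _ y

theorem exists_aq {g : Fld n X} (hg : Met g) (p : X) {η : ℝ} (hη : 0 < η) {U : Set X}
    (hU : U ∈ 𝓝 p) : ∃ ρ > (0 : ℝ), ∃ μ > (0 : ℝ), ∃ r₀ > (0 : ℝ), ∀ r, 0 < r → r ≤ r₀ →
      ∀ c ∈ ball (pt p) ρ, ∃ Q, Aq g η r Q ∧ (∀ x ∉ U, r ^ 2 ≤ Q x) ∧
        ∀ y, μ * ‖y - c‖ ≤ r → Q ((ch p).symm y) ≤ (μ * ‖y - c‖) ^ 2 := by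
  have he := ch_mem p
  set e := ch p
  have hG := hg.rep he
  set G := rep e g
  obtain ⟨a, a0, ha⟩ := qc_bd hG (pt p)
  have h1 := (qc_good hG (pt p) hη).and ((continuous_fst.tendsto (pt p, pt p)).eventually
    (ev_pt.1 hU))
  obtain ⟨ρ, ρ0, hρ⟩ := Metric.eventually_nhds_iff.1 h1
  have sa := Real.sqrt_pos.2 a0
  refine ⟨ρ / 2, by positivity, (√a)⁻¹, by positivity, √a * (ρ / 2), by positivity,
    fun r r0 hr c hc => ?_⟩
  set q := qc (G (pt p)) c with hq
  have q0 : ∀ y, 0 ≤ q y := fun y => le_trans (by positivity) (ha c y).1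
  set F : E n → ℝ := fun y => (2 * r ^ 2 - q y) * kap (2 * r) (q y) with hF
  have r2 : 0 < 2 * r := by positivity
  have F0 : ∀ y, 2 * r ^ 2 ≤ q y → F y = 0 := fun y h => by
    simp only [hF]
    rw [kap_zero r2 (by linarith), mul_zero]
  have F1 : ∀ y, q y ≤ r ^ 2 → F y = 2 * r ^ 2 - q y := fun y h => by
    simp only [hF]
    rw [kap_one r2 (by linarith), mul_one]
  have F2 : ∀ y, F y ≤ max (2 * r ^ 2 - q y) 0 := fun y => by
    rcases le_total (2 * r ^ 2) (q y) with h | h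
    · rw [F0 y h]; exact le_max_right _ _
    · exact (mul_le_of_le_one_right (by linarith) (kap_le _ _)).trans (le_max_left _ _)
  have smF : ContDiff ℝ ∞ F :=
    (contDiff_const.sub (sm_qc _ _)).mul ((sm_kap _).comp (sm_qc _ _))
  have smQ : P366M.Smooth fun x => 2 * r ^ 2 - ex0 e F x := by
    refine CD.sub cd_const (cd_ex0 le_rfl he smF (isCompact_closedBall c (2 * r / √a))
      fun y hy => F0 y (le_trans ?_ (ha c y).1))
    rw [mem_closedBall, not_le, dist_eq_norm, div_lt_iff₀ sa] at hy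
    have := pow_le_pow_left₀ r2.le hy.le 2
    rw [mul_pow ‖y - c‖, Real.sq_sqrt a0.le] at this
    nlinarith
  have key : ∀ x, 2 * r ^ 2 - ex0 e F x < r ^ 2 → ∃ y, e.symm y = x ∧ q y < r ^ 2 ∧
      dist (y, c) (pt p, pt p) < ρ := fun x hx => by
    unfold ex0 at hx
    split_ifs at hx with h
    · have k1 : q (e x) < r ^ 2 := by
        rcases le_max_iff.1 (F2 (e x)) with k | k <;> nlinarith
      refine ⟨e x, e.left_inv h, k1, ?_⟩
      have k2 : ‖e x - c‖ < ρ / 2 := by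
        have k3 := pow_le_pow_left₀ r0.le hr 2
        rw [mul_pow, Real.sq_sqrt a0.le] at k3
        exact lt_of_pow_lt_pow_left₀ 2 (by positivity)
          (lt_of_mul_lt_mul_left (((ha c _).1.trans_lt k1).trans_le k3) a0.le)
      rw [Prod.dist_eq, max_lt_iff]
      rw [mem_ball] at hc
      rw [← dist_eq_norm] at k2
      exact ⟨by linarith [dist_triangle (e x) c (pt p)], by linarith⟩
    · nlinarith
  have ev : ∀ y, q y < r ^ 2 → loc e (fun x => 2 * r ^ 2 - ex0 e F x) =ᶠ[𝓝 y] q := fun y hy => by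
    filter_upwards [(sm_qc _ _).continuous.continuousAt.eventually (gt_mem_nhds hy)] with z hz
    show 2 * r ^ 2 - loc e (ex0 e F) z = _
    rw [loc_ex0 he, F1 z hz.le]; ring
  refine ⟨fun x => 2 * r ^ 2 - ex0 e F x, ⟨smQ, fun x => ?_, fun x hx => ?_, fun x hx ξ => ?_⟩,
    fun x hx => ?_, fun y hy => ?_⟩
  · unfold ex0
    split_ifs with h
    · rcases le_max_iff.1 (F2 (e x)) with k | k <;> nlinarith [q0 (e x)]
    · nlinarith
  · obtain ⟨y, rfl, k1, k2⟩ := key x hx
    rw [← ip_rep he g (smQ.diff _) (smQ.diff _), P366Z.ip_congr (ev y k1) (ev y k1)]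
    exact (hρ k2).1.1.trans (le_of_eq (congrArg _ (ev y k1).eq_of_nhds.symm))
  · obtain ⟨y, rfl, k1, k2⟩ := key x hx
    rw [← qf_rep he, ← qf_rep he (P366M.hess _ _), ← hess_rep hg he (smQ.c2 _)]
    refine ((hρ k2).1.2 _).trans (le_of_eq ?_)
    congr 1
    funext i j
    simp only [Stmt.hess, P366Z.pd_congr (ev y k1), P366Z.pd_congr (P366Z.pd_congr_ev (ev y k1) j)]
    rfl
  · by_contra h
    obtain ⟨y, rfl, -, k2⟩ := key x (not_le.1 h)
    exact hx (hρ k2).2
  · have k1 : q y ≤ ((√a)⁻¹ * ‖y - c‖) ^ 2 := by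
      rw [mul_pow, inv_pow, Real.sq_sqrt a0.le, le_inv_mul_iff₀ a0]
      exact (ha c y).2
    have k2 := pow_le_pow_left₀ (by positivity) hy 2
    show 2 * r ^ 2 - loc e (ex0 e F) y ≤ _
    rw [loc_ex0 he, F1 y (k1.trans k2)]
    linarith

end Vale.Agent.P366H
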