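import Vale.Agent.P366Z.Grad
import Vale.Agent.P366Z.Upd
import Vale.Agent.P366Y.G.Sch

/-!
# P366H: a positive solution with a small flux is small on an annulus
-/

open MeasureTheory Metric Filter Topology Set Asymptotics
open scoped ContDiff
open Vale.Agent.P366.Stmt Vale.Agent.P366Z

noncomputable section

namespace Vale.Agent.P366H

variable {n : ℕ}

theorem wt1 : Wt (eu n) fun _ => 1 :=
  ⟨contDiff_const, 1, one_pos, 1, fun x => by simp [lap_const]⟩

/-- the value at the centre is bounded by the integral -/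
theorem sub_mean (hn : 3 ≤ n) {r q : ℝ} (r0 : 0 < r) (r1 : r ≤ 1) (q0 : 0 ≤ q) : ∃ C > (0 : ℝ),
    ∀ (u : E n → ℝ) (x : E n), Smooth u → (∀ y ∈ ball x r, 0 ≤ u y ∧ |lap (eu n) u y| ≤ q * u y) →
      u x ≤ C * ∫ y in ball x r, u y := by
  obtain ⟨C, hC⟩ := grad n (eu n) 0 (fun _ => 1) hn met_eu (flat_eu 0) wt1
  have n0 : 0 < n := by omega
  have w0 := omega_pos n0
  set κ := 1 / (8 * (|C| + 1) * 2 ^ n * (1 + q)) with hκ
  have κ0 : 0 < κ := by positivity
  have κ1 : κ * (8 * (|C| + 1) * 2 ^ n * (1 + q)) = 1 := one_div_mul_cancel (by positivity)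
  have t1 : (1 : ℝ) ≤ 2 ^ n := one_le_pow₀ one_le_two
  have κ2 : κ ≤ 1 / 8 := by
    refine one_div_le_one_div_of_le (by norm_num) ?_
    have := mul_le_mul (mul_le_mul (le_add_of_nonneg_left (a := 1) (abs_nonneg C)) t1 zero_le_one
      (by positivity)) (le_add_of_nonneg_right q0) zero_le_one (by positivity)
    linarith
  refine ⟨2 / (omega n / n * κ ^ n * r ^ n), by positivity, fun u x hu h => ?_⟩
  have I0 : 0 ≤ ∫ y in ball x r, u y := setIntegral_nonneg measurableSet_ball fun y hy => (h y hy).1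
  obtain ⟨y₀, h0, hm⟩ := (isCompact_closedBall x r).exists_isMaxOn ⟨x, mem_closedBall_self r0.le⟩
    (f := fun y => u y * (r - dist y x) ^ n) (by have := hu.cont; fun_prop)
  have m1 : u x * r ^ n ≤ u y₀ * (r - dist y₀ x) ^ n := by
    simpa using hm (mem_closedBall_self r0.le)
  set d := r - dist y₀ x with hd
  rw [div_mul_eq_mul_div, le_div_iff₀ (by positivity)]
  rcases (show 0 ≤ d from sub_nonneg.2 (mem_closedBall.1 h0)).eq_or_lt with d0 | d0
  · rw [← d0, zero_pow n0.ne', mul_zero] at m1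
    have : 0 < omega n / n * κ ^ n := by positivity
    nlinarith
  have d1 : d ≤ 1 := by linarith [dist_nonneg (x := y₀) (y := x)]
  have u0 := (h y₀ (mem_ball.2 (by linarith))).1
  have b1 : ∀ y ∈ ball y₀ (d / 2), y ∈ ball x r ∧ u y ≤ 2 ^ n * u y₀ := fun y hy => by
    have a1 : d / 2 ≤ r - dist y x := by linarith [mem_ball.1 hy, dist_triangle y y₀ x]
    have a2 : y ∈ ball x r := mem_ball.2 (by linarith)
    have a3 : u y * (r - dist y x) ^ n ≤ u y₀ * d ^ n := hm (ball_subset_closedBall a2)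
    have a4 := (mul_le_mul_of_nonneg_left (pow_le_pow_left₀ (by positivity) a1 n) (h y a2).1).trans a3
    rw [div_pow, ← mul_div_assoc, div_le_iff₀ (by positivity)] at a4
    exact ⟨a2, le_of_mul_le_mul_right (by linarith) (pow_pos d0 n)⟩
  have b2 : ∀ z ∈ ball y₀ (κ * d), ‖fderiv ℝ u z‖ ≤ u y₀ / (2 * (κ * d)) := fun z hz => by
    have a0 : κ * d ≤ d / 8 := by nlinarith
    have a1 := hC (d / 4) (2 ^ n * u y₀) (q * (2 ^ n * u y₀)) z u (by positivity) (by linarith)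
      fun y hy => by
        obtain ⟨a2, a3⟩ := b1 y (mem_ball.2 (by
          linarith [mem_ball.1 hy, mem_ball.1 hz, dist_triangle y z y₀]))
        refine ⟨hu.c2 y, by rwa [abs_of_nonneg (h y a2).1], ?_⟩
        rw [wl_one]
        exact (h y a2).2.trans (mul_le_mul_of_nonneg_left a3 q0)
    refine a1.trans ((mul_le_mul_of_nonneg_right (le_abs_self C) (by positivity)).trans ?_)
    rw [le_div_iff₀ (by positivity)]
    have a4 : (2 ^ n * u y₀ / (d / 4) + d / 4 * (q * (2 ^ n * u y₀))) * d ≤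
        4 * (2 ^ n * (1 + q)) * u y₀ := by
      have : d * d / 4 * (q * (2 ^ n * u y₀)) ≤ 4 * (q * (2 ^ n * u y₀)) :=
        mul_le_mul_of_nonneg_right (by nlinarith) (by positivity)
      rw [add_mul, div_div_eq_mul_div, div_mul_cancel₀ _ d0.ne']
      linarith
    have a5 := mul_le_mul (le_add_of_nonneg_right zero_le_one : |C| ≤ |C| + 1) a4 (by positivity)
      (by positivity)
    have a6 := mul_le_mul_of_nonneg_left a5 κ0.le
    have a7 := congrArg (· * u y₀) κ1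
    linarith
  have b3 : ∀ z ∈ ball y₀ (κ * d), u y₀ / 2 ≤ u z := fun z hz => by
    have a1 := (convex_ball y₀ (κ * d)).norm_image_sub_le_of_norm_fderiv_le
      (fun y _ => hu.diff y) b2 (mem_ball_self (by positivity)) hz
    have a2 : u y₀ / (2 * (κ * d)) * ‖z - y₀‖ ≤ u y₀ / (2 * (κ * d)) * (κ * d) :=
      mul_le_mul_of_nonneg_left (mem_ball_iff_norm.1 hz).le (by positivity)
    have a3 : u y₀ / (2 * (κ * d)) * (κ * d) = u y₀ / 2 := by field_simp
    linarith [(abs_le.1 a1).1]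
  have sb : ball y₀ (κ * d) ⊆ ball x r := fun z hz =>
    (b1 z (ball_subset_ball (by nlinarith) hz)).1
  have i1 : IntegrableOn u (ball x r) :=
    (hu.cont.continuousOn.integrableOn_compact (isCompact_closedBall x r)).mono_set
      ball_subset_closedBall
  have b4 := (setIntegral_ge_of_const_le measurableSet_ball measure_ball_lt_top.ne b3
    (i1.mono_set sb)).trans (setIntegral_mono_set i1 ((ae_restrict_iff' measurableSet_ball).2
      (.of_forall fun y hy => (h y hy).1)) sb.eventuallyLE)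
  rw [measureReal_def, real_ball n0 _ (by positivity), mul_pow, smul_eq_mul] at b4
  have : 0 < omega n / n * κ ^ n := by positivity
  nlinarith

/-- the integral over a part of the annulus is bounded by the flux -/
theorem int_flux (hn : 3 ≤ n) {r₀ r₁ r₂ : ℝ} (h0 : 0 < r₀) (h1 : r₀ < r₁) : ∃ C > (0 : ℝ),
    ∀ (u : E n → ℝ) (A : ℝ) (B : Set (E n)), Smooth u → Asy u 0 A → MeasurableSet B →
      (∀ y, r₀ ≤ ‖y‖ → 0 ≤ u y ∧ lap (eu n) u y ≤ 0) → (∀ y ∈ B, r₁ ≤ ‖y‖ ∧ ‖y‖ ≤ r₂) →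
        ∫ y in B, u y ≤ C * A := by
  have n3 : (3 : ℝ) ≤ n := by exact_mod_cast hn
  have w0 := omega_pos (n := n) (by omega)
  have lt : r₁ ^ (2 - n : ℝ) < r₀ ^ (2 - n : ℝ) := Real.rpow_lt_rpow_of_neg h0 h1 (by linarith)
  set s₀ := r₀ ^ (2 - n : ℝ)
  obtain ⟨η, f, hf⟩ := UpdH.ex_fc (η' := (s₀ - r₁ ^ (2 - n : ℝ)) / 3) (by linarith)
  have r1 : 0 < r₁ := h0.trans h1
  have p1 : 0 < r₁ ^ (2 - n : ℝ) := by positivity
  have df : Differentiable ℝ f := hf.sm.differentiable (by simp)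
  have sf : ContDiff ℝ ∞ (deriv f) := (contDiff_infty_iff_deriv.1 hf.sm).2
  have f0 : ∀ t, 0 ≤ f t := fun t => by
    have := monotone_of_deriv_nonneg df (fun t => (hf.d1 t).1) (min_le_left t 0)
    rwa [hf.zero _ ((min_le_right _ _).trans (by linarith))] at this
  have f1 : ∀ t, 2 * ((s₀ - r₁ ^ (2 - n : ℝ)) / 3) < t → deriv f t = 1 := fun t ht => by
    rw [EventuallyEq.deriv_eq (f := fun t => t - η) ((eventually_gt_nhds ht).mono fun s hs =>
      hf.lin s hs.le)]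
    simp
  set ζ : E n → ℝ := fun y => f (s₀ - ‖y‖ ^ (2 - n : ℝ)) ^ 2 with hζ
  have z0 : ∀ y : E n, y ≠ 0 → ‖y‖ ≤ r₀ → ζ =ᶠ[𝓝 y] fun _ => 0 := fun y hy h => by
    have : s₀ ≤ ‖y‖ ^ (2 - n : ℝ) := Real.rpow_le_rpow_of_nonpos (norm_pos_iff.2 hy) h (by linarith)
    filter_upwards [(contDiffAt_norm_rpow (m := 0) hy (2 - n : ℝ)).continuousAt.eventually
      (lt_mem_nhds (by linarith : s₀ - (s₀ - r₁ ^ (2 - n : ℝ)) / 3 < _))] with z hz
    simp only [hζ]
    rw [hf.zero _ (by linarith), zero_pow two_ne_zero]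
  classical
  set Z : E n → ℝ := fun y => if y = 0 then 0 else ζ y with hZ
  have ev : ∀ y : E n, y ≠ 0 → Z =ᶠ[𝓝 y] ζ := fun y hy =>
    (eventually_ne_nhds hy).mono fun z hz => if_neg hz
  have z1 : ∀ y : E n, ‖y‖ ≤ r₀ → Z =ᶠ[𝓝 y] fun _ => 0 := fun y h => by
    by_cases hy : y = 0
    · filter_upwards [ball_mem_nhds y h0] with z hz
      simp only [hZ]
      split_ifs with k
      · rfl
      · exact (z0 z k (by simpa [hy] using (mem_ball.1 hz).le)).self_of_nhds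
    · exact (ev y hy).trans (z0 y hy h)
  have cs : ∀ y : E n, y ≠ 0 → ContDiffAt ℝ ∞ (fun y : E n => s₀ - ‖y‖ ^ (2 - n : ℝ)) y :=
    fun y hy => contDiffAt_const.sub (contDiffAt_norm_rpow hy _)
  have sZ : Smooth Z := contDiff_iff_contDiffAt.2 fun y => by
    by_cases hy : y = 0
    · exact contDiffAt_const.congr_of_eventuallyEq (z1 y (by simp [hy, h0.le]))
    · exact ((hf.sm.contDiffAt.comp y (cs y hy)).pow 2).congr_of_eventuallyEq (ev y hy)
  have dd : ∀ t, HasDerivAt (fun t => f t ^ 2) (2 * f t * deriv f t) t := fun t => by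
    simpa using (df t).hasDerivAt.fun_pow 2
  have pZ : ∀ y : E n, y ≠ 0 → ∀ i, pd i Z y = 2 * f (s₀ - ‖y‖ ^ (2 - n : ℝ)) *
      deriv f (s₀ - ‖y‖ ^ (2 - n : ℝ)) * ((n - 2) * y i * ‖y‖ ^ (-n : ℝ)) := fun y hy i => by
    rw [pd_congr (ev y hy), pd_comp (dd _) ((cs y hy).differentiableAt (by simp)), pd_const_sub,
      pd_norm_rpow hy, show (2 - n : ℝ) - 2 = -n by ring]
    ring
  have lZ : ∀ y : E n, y ≠ 0 → 2 * (deriv f (s₀ - ‖y‖ ^ (2 - n : ℝ)) * ‖y‖ ^ (1 - n : ℝ)) ^ 2 ≤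
      lap (eu n) Z y := fun y hy => by
    have y0 := norm_pos_iff.2 hy
    have e1 : deriv (fun t => f t ^ 2) = fun t => 2 * f t * deriv f t := funext fun t => (dd t).deriv
    have e2 : ip (eu n) (fun y : E n => s₀ - ‖y‖ ^ (2 - n : ℝ))
        (fun y : E n => s₀ - ‖y‖ ^ (2 - n : ℝ)) y = ((n - 2) * ‖y‖ ^ (1 - n : ℝ)) ^ 2 := by
      rw [ip_eu, show (1 - n : ℝ) = (2 - n - 2) + 1 by ring, Real.rpow_add_one y0.ne', ← mul_assoc,
        mul_pow, norm_sq_eq, Finset.mul_sum]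
      exact Finset.sum_congr rfl fun i _ => by rw [pd_const_sub, pd_norm_rpow hy]; ring
    rw [lap_congr (ev y hy), met_eu.lap_comp (φ := fun t => f t ^ 2)
      ((cs y hy).of_le (by norm_cast)) ((hf.sm.of_le (by norm_cast)).contDiffAt.pow 2),
      lap_const_sub, lap_eu_rpow hy, e2, e1, (((df _).hasDerivAt.const_mul 2).fun_mul
        (sf.differentiable (by simp) _).hasDerivAt).deriv]
    have a1 := mul_nonneg (mul_nonneg (f0 (s₀ - ‖y‖ ^ (2 - n : ℝ))) (hf.d2 (s₀ - ‖y‖ ^ (2 - n : ℝ))))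
      (sq_nonneg ((n - 2) * ‖y‖ ^ (1 - n : ℝ)))
    have a2 : (1 : ℝ) ≤ (n - 2) ^ 2 := one_le_pow₀ (by linarith)
    have a3 := mul_le_mul_of_nonneg_right a2
      (sq_nonneg (deriv f (s₀ - ‖y‖ ^ (2 - n : ℝ)) * ‖y‖ ^ (1 - n : ℝ)))
    linarith
  have mr : 0 < max r₁ r₂ := r1.trans_le (le_max_left _ _)
  have e0 : 0 < 2 * (max r₁ r₂ ^ (1 - n : ℝ)) ^ 2 := by positivity
  have sη : 0 < s₀ - η := by linarith [hf.le.2]
  refine ⟨(n - 2) * (s₀ - η) ^ 2 * omega n / (2 * (max r₁ r₂ ^ (1 - n : ℝ)) ^ 2),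
    div_pos (mul_pos (mul_pos (by linarith) (by positivity)) w0) e0, fun u A B hu hA hB h hr => ?_⟩
  have sX : ∀ i, Smooth fun y => u y * pd i Z y - Z y * pd i u y := fun i =>
    ContDiff.sub (ContDiff.mul hu (sZ.pd i)) (ContDiff.mul sZ (hu.pd i))
  have dX : ∀ y, ∑ i, pd i (fun y => u y * pd i Z y - Z y * pd i u y) y =
      u y * lap (eu n) Z y - Z y * lap (eu n) u y := fun y => by
    rw [lap_eu, lap_eu, Finset.mul_sum, Finset.mul_sum, ← Finset.sum_sub_distrib]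
    refine Finset.sum_congr rfl fun i _ => ?_
    rw [pd_sub ((hu.diff y).fun_mul ((sZ.pd i).diff y)) ((sZ.diff y).fun_mul ((hu.pd i).diff y)),
      pd_mul (hu.diff y) ((sZ.pd i).diff y), pd_mul (sZ.diff y) ((hu.pd i).diff y)]
    ring
  have far : ∀ y : E n, r₁ ≤ ‖y‖ → y ≠ 0 ∧ f (s₀ - ‖y‖ ^ (2 - n : ℝ)) = s₀ - η - ‖y‖ ^ (2 - n : ℝ) ∧
      deriv f (s₀ - ‖y‖ ^ (2 - n : ℝ)) = 1 := fun y hy => by
    have : ‖y‖ ^ (2 - n : ℝ) ≤ r₁ ^ (2 - n : ℝ) := Real.rpow_le_rpow_of_nonpos r1 hy (by linarith)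
    exact ⟨norm_pos_iff.1 (r1.trans_le hy), by rw [hf.lin _ (by linarith)]; ring,
      f1 _ (by linarith)⟩
  have w : ∀ i, (fun y : E n => u y * pd i Z y - Z y * pd i u y -
      (n - 2) * (s₀ - η) ^ 2 * A * y i * ‖y‖ ^ (-n : ℝ)) =O[cocompact (E n)]
        fun y => ‖y‖ ^ (-n : ℝ) := fun i => by
    have p := Y.SchX.val hn hA
    have N : (fun y : E n => ‖y‖ ^ (2 - n : ℝ)) =O[cocompact (E n)] fun y => ‖y‖⁻¹ :=
      Y.SchX.of_far (C := 1) (R := 1) (fun y hy => by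
        rw [one_mul, abs_of_nonneg (by positivity), ← Real.rpow_neg_one]
        exact Real.rpow_le_rpow_of_exponent_le hy (by linarith)) fun y => by positivity
    have N1 : (fun y : E n => ‖y‖⁻¹) =O[cocompact (E n)] fun _ => (1 : ℝ) :=
      Y.SchX.of_far (C := 1) (R := 1) (fun y hy => by
        rw [one_mul, abs_of_nonneg (by positivity)]
        exact inv_le_one_of_one_le₀ hy) fun _ => zero_le_one
    have N2 : (fun y : E n => s₀ - η - ‖y‖ ^ (2 - n : ℝ)) =O[cocompact (E n)] fun _ => (1 : ℝ) :=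
      (isBigO_const_one ℝ _ _).sub (N.trans N1)
    have x1 : (fun y : E n => y i) =O[cocompact (E n)] fun x => ‖x‖ :=
      Y.SchX.of_far (C := 1) (R := 0) (fun x _ => by rw [one_mul]; exact AsyF.abs_coord x i)
        norm_nonneg
    have x2 : (fun x : E n => ‖x‖ * ‖x‖⁻¹) =O[cocompact (E n)] fun _ => (1 : ℝ) :=
      Y.SchX.of_bd (C := 1) fun x => by
        rw [abs_of_nonneg (by positivity)]
        exact mul_inv_le_one
    have t := (((p.mul N2).const_mul_left 2).congr_right fun y => mul_one _).add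
      (((N.mul (N2.add (isBigO_const_one ℝ (s₀ - η) _))).const_mul_left (-A)).congr_right
        fun y => mul_one _)
    have y1 := ((N2.mul N2).mul (Y.SchX.der hA i)).congr_right
      (g₂ := fun x => ‖x‖ ^ (-n : ℝ)) fun x => by rw [one_mul, one_mul]
    have y2 := ((((x1.mul t).trans x2).mul (isBigO_refl (fun x : E n => ‖x‖ ^ (-n : ℝ))
      _)).const_mul_left (n - 2 : ℝ)).congr_right (g₂ := fun x => ‖x‖ ^ (-n : ℝ))
        fun x => one_mul _
    refine (y2.sub y1).congr' ((AsyF.far r₁).mono fun y hy => ?_) .rfl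
    obtain ⟨a1, a2, a3⟩ := far y hy
    simp only [pZ y a1, (ev y a1).self_of_nhds, hζ, a2, a3]
    ring
  obtain ⟨C, hC⟩ := (isBigO_pi.2 w).bound
  obtain ⟨R, hR⟩ := Y.SchX.to_far hC
  have fl := flux n _ ((n - 2) * (s₀ - η) ^ 2 * A) hn sX ⟨C, R, fun x hx i => by
    have := (norm_le_pi_norm _ i).trans (hR x hx)
    rwa [Real.norm_eq_abs, Real.norm_of_nonneg (by positivity)] at this⟩
  have D0 : ∀ y, 0 ≤ u y * lap (eu n) Z y ∧ 0 ≤ -(Z y * lap (eu n) u y) := fun y => by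
    rcases le_total ‖y‖ r₀ with k | k
    · rw [lap_congr (z1 y k), (z1 y k).self_of_nhds, lap_const]; simp
    · have hy := norm_pos_iff.1 (h0.trans_le k)
      refine ⟨mul_nonneg (h y k).1 (le_trans (by positivity) (lZ y hy)), neg_nonneg.2
        (mul_nonpos_of_nonneg_of_nonpos ?_ (h y k).2)⟩
      rw [(ev y hy).self_of_nhds]
      exact sq_nonneg _
  rw [div_mul_eq_mul_div, le_div_iff₀ e0, ← integral_mul_const,
    show (n - 2) * (s₀ - η) ^ 2 * omega n * A = (n - 2) * (s₀ - η) ^ 2 * A * omega n by ring]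
  refine ge_of_tendsto fl ((eventually_ge_atTop (max r₁ r₂)).mono fun r k => ?_)
  have cD : Continuous fun x => cut r x *
      ∑ i, pd i (fun y => u y * pd i Z y - Z y * pd i u y) x :=
    (sm_cut r).cont.mul (continuous_finsetSum _ fun i _ => ((sX i).pd i).cont)
  have iD := cD.integrable_of_hasCompactSupport (μ := volume) (supp_cut (mr.trans_le k)).mul_right
  refine le_trans (setIntegral_mono_on ((((hu.cont.mul continuous_const).continuousOn).integrableOn_compact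
    (isCompact_closedBall 0 r₂)).mono_set fun y hy => mem_closedBall_zero_iff.2 (hr y hy).2)
    iD.integrableOn hB fun y hy => ?_) (setIntegral_le_integral iD (.of_forall fun y => ?_))
  · obtain ⟨a1, -, a3⟩ := far y (hr y hy).1
    have a4 := lZ y a1
    have a5 : max r₁ r₂ ^ (1 - n : ℝ) ≤ ‖y‖ ^ (1 - n : ℝ) := Real.rpow_le_rpow_of_nonpos
      (norm_pos_iff.2 a1) ((hr y hy).2.trans (le_max_right _ _)) (by linarith)
    rw [a3, one_mul] at a4
    rw [cut_one ((hr y hy).2.trans ((le_max_right _ _).trans k)), one_mul, dX]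
    have := mul_le_mul_of_nonneg_left ((mul_le_mul_of_nonneg_left (pow_le_pow_left₀
      (by positivity) a5 2) two_pos.le).trans a4) (h y (h1.le.trans (hr y hy).1)).1
    linarith [(D0 y).2]
  · refine mul_nonneg (cut_nonneg _ _) ?_
    rw [dX]
    linarith [(D0 y).1, (D0 y).2]

theorem pd_scale (u : E n → ℝ) (l : ℝ) (i : Fin n) (y : E n) :
    pd i (fun z => u (l • z)) y = l * pd i u (l • y) := by
  have := lineDeriv_smul (𝕜 := ℝ) (f := u) (x := l • y) (v := EuclideanSpace.single i 1) (c := l)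
  rw [smul_eq_mul] at this
  rw [pd, pd, ← this, lineDeriv, lineDeriv]
  simp only [smul_add, smul_comm l]

theorem lap_scale (u : E n → ℝ) (l : ℝ) (y : E n) :
    lap (eu n) (fun z => u (l • z)) y = l ^ 2 * lap (eu n) u (l • y) := by
  rw [lap_eu, lap_eu, Finset.mul_sum]
  refine Finset.sum_congr rfl fun i _ => ?_
  rw [show pd i (fun z => u (l • z)) = fun y => l * pd i u (l • y) from funext (pd_scale u l i),
    pd_const_mul, pd_scale]
  ring

theorem asy_scale {u : E n → ℝ} {a A l : ℝ} (h : Asy u a A) (hl : 0 < l) :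
    Asy (fun z => u (l • z)) a (A * l ^ (2 - n : ℝ)) := by
  obtain ⟨C, R, h⟩ := h
  refine ⟨C * l ^ (1 - n : ℝ), R / l, fun x hx => ?_⟩
  have e : ‖l • x‖ = l * ‖x‖ := by rw [norm_smul, Real.norm_of_nonneg hl.le]
  obtain ⟨h1, h2⟩ := h (l • x) (by rwa [e, ← div_le_iff₀' hl])
  simp only [e, Real.mul_rpow hl.le (norm_nonneg x)] at h1 h2
  refine ⟨by simpa only [mul_assoc] using h1, fun i => ?_⟩
  have h3 := mul_le_mul_of_nonneg_left (h2 i) hl.le
  have e1 : l ^ (1 - n : ℝ) = l * l ^ (-n : ℝ) := by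
    rw [sub_eq_add_neg, Real.rpow_add hl, Real.rpow_one]
  have e2 : l ^ (2 - n : ℝ) = l * (l * l ^ (-n : ℝ)) := by
    rw [sub_eq_add_neg, Real.rpow_add hl, Real.rpow_two]; ring
  rw [← abs_of_pos hl, ← abs_mul, abs_of_pos hl] at h3
  rw [pd_scale, e1, e2]
  refine le_of_eq_of_le (congrArg _ ?_) (h3.trans_eq (by ring))
  rw [PiLp.smul_apply, smul_eq_mul]
  ring

/-- **FAR** -/
theorem far (hn : 3 ≤ n) {R w q : ℝ} (R0 : 0 < R) (w0 : 0 < w) (q0 : 0 ≤ q) : ∃ C > (0 : ℝ),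
    ∀ l > (0 : ℝ), ∀ (u : E n → ℝ) (A : ℝ), Smooth u → Asy u 0 A →
      (∀ y, l * R ≤ ‖y‖ → 0 ≤ u y ∧ lap (eu n) u y ≤ 0 ∧
        (‖y‖ ≤ l * (R + 4 * w) → |lap (eu n) u y| ≤ q / l ^ 2 * u y)) →
      ∀ y, l * (R + w) ≤ ‖y‖ → ‖y‖ ≤ l * (R + 2 * w) → u y ≤ C * (A * l ^ (2 - n : ℝ)) := by
  obtain ⟨C₁, c1, h1⟩ := sub_mean hn (r := min (w / 2) 1) (by positivity) (min_le_right _ _) q0
  obtain ⟨C₂, c2, h2⟩ := int_flux hn (r₂ := R + 3 * w) R0 (by linarith : R < R + w / 2)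
  refine ⟨C₁ * C₂, by positivity, fun l hl u A hu hA h y y1 y2 => ?_⟩
  have e : ∀ x : E n, ‖l • x‖ = l * ‖x‖ := fun x => by rw [norm_smul, Real.norm_of_nonneg hl.le]
  obtain ⟨x, rfl⟩ : ∃ x, y = l • x := ⟨l⁻¹ • y, (smul_inv_smul₀ hl.ne' y).symm⟩
  rw [e, mul_le_mul_iff_right₀ hl] at y1 y2
  have su : Smooth fun z => u (l • z) := ContDiff.comp hu (contDiff_const_smul l)
  have hb : ∀ z ∈ ball x (min (w / 2) 1), R + w / 2 ≤ ‖z‖ ∧ ‖z‖ ≤ R + 3 * w := fun z hz => by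
    have := (abs_norm_sub_norm_le z x).trans ((mem_ball_iff_norm.1 hz).le.trans (min_le_left _ _))
    constructor <;> linarith [(abs_le.1 this).1, (abs_le.1 this).2]
  refine (h1 _ x su fun z hz => ?_).trans ((mul_le_mul_of_nonneg_left (h2 _ _ _ su
    (asy_scale hA hl) measurableSet_ball (fun z hz => ?_) hb) c1.le).trans_eq (by ring))
  · obtain ⟨a1, -, a2⟩ := h (l • z) (by rw [e, mul_le_mul_iff_right₀ hl]; linarith [(hb z hz).1])
    refine ⟨a1, ?_⟩
    rw [lap_scale, abs_mul, abs_of_pos (pow_pos hl 2), ← le_div_iff₀' (pow_pos hl 2),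
      ← div_mul_eq_mul_div]
    exact a2 (by rw [e, mul_le_mul_iff_right₀ hl]; linarith [(hb z hz).2])
  · obtain ⟨a1, a2, -⟩ := h (l • z) (by rwa [e, mul_le_mul_iff_right₀ hl])
    exact ⟨a1, by rw [lap_scale]; exact mul_nonpos_of_nonneg_of_nonpos (sq_nonneg l) a2⟩

end Vale.Agent.P366H
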