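import Vale.Agent.P366H.Shf0
import Vale.Agent.P366H.Far
import Vale.Agent.P366H.Fn
import Vale.Agent.P366M.Solv2

/-!
# P366H: the potential of a bump
-/

open MeasureTheory Metric Filter Topology Set
open scoped ContDiff
open Vale.Agent.P366 Vale.Agent.P366.Stmt Vale.Agent.P366Z
open Vale.Agent.P366H (sm_st hd0 s1 s2 s1_nn s1_zero s1_le s2_le DD DD_ge hd1)

noncomputable section

namespace Vale.Agent.P366M.G

variable {n : ℕ}

/-- the switch at the level `k / 4` -/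
def sw (k t : ℝ) : ℝ := Real.smoothTransition (4 * t - k)

theorem sm_sw (k : ℝ) : ContDiff ℝ ∞ (sw k) := sm_st.comp (by fun_prop)

theorem sw_nn (k t : ℝ) : 0 ≤ sw k t := Real.smoothTransition.nonneg _

theorem sw_le (k t : ℝ) : sw k t ≤ 1 := Real.smoothTransition.le_one _

theorem sw_zero {k t : ℝ} (h : 4 * t ≤ k) : sw k t = 0 :=
  Real.smoothTransition.zero_of_nonpos (by linarith)

theorem sw_one {k t : ℝ} (h : k + 1 ≤ 4 * t) : sw k t = 1 :=
  Real.smoothTransition.one_of_one_le (by linarith)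

theorem hd_sw (k t : ℝ) : HasDerivAt (sw k) (s1 (4 * t - k) * 4) t :=
  (hd0 _).comp t (by simpa using ((hasDerivAt_id t).const_mul 4).sub_const k)

section M0

variable {M : Type} [Mf0 n M] {G : Fld n M} {c : M → ℝ} {x : M} {L : ℝ}

theorem gn_sw (hc : Smooth c) (k : ℝ) (x : M) :
    gn G (fun y => sw k (c y)) x = 4 * s1 (4 * c x - k) * gn G c x := by
  rw [gn_comp (hd_sw k _) (hc.diff x), abs_of_nonneg (mul_nonneg (s1_nn _) (by norm_num))]
  ring

theorem gn_sw_le (hc : Smooth c) (k : ℝ) (h : gn G c x ≤ L) :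
    gn G (fun y => sw k (c y)) x ≤ 4 * DD * L := by
  rw [gn_sw hc]
  exact mul_le_mul (by linarith [s1_le (4 * c x - k)]) h (gn_nonneg _ _ _) (by linarith [DD_ge])

theorem gn_sw_zero (hc : Smooth c) {k : ℝ} (h : 4 * c x ≤ k) :
    gn G (fun y => sw k (c y)) x = 0 := by
  rw [gn_sw hc, s1_zero (.inl (by linarith)), mul_zero, zero_mul]

end M0

variable {M : Type} [Mfe n M] {g G : Fld n M} {v c : M → ℝ} {ρ L A a β : ℝ}

/-- the energy of the competitor -/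
theorem ener_bump (hG : Met G) (hc : Smooth c) (gr : ∀ x, gn G c x ≤ L) (A0 : 0 ≤ A)
    (vol : ∫⁻ x in {x | 0 < c x}, ENNReal.ofReal (dens G x) ≤ ENNReal.ofReal A) :
    ∫ x, ip G (fun y => 1 - sw 0 (c y)) (fun y => 1 - sw 0 (c y)) x * dens G x ≤
      (4 * DD * L) ^ 2 * A := by
  have e : ∀ x, ip G (fun y => 1 - sw 0 (c y)) (fun y => 1 - sw 0 (c y)) x =
      gn G (fun y => sw 0 (c y)) x ^ 2 := fun x => by
    have p : ∀ i, pd i (fun y => 1 - sw 0 (c y)) x = -1 * pd i (fun y => sw 0 (c y)) x :=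
      fun i => by rw [pd_const_sub, neg_one_mul]
    rw [hG.gn_sq, ip_of_pd p p]
    ring
  simp only [e]
  have m : MeasurableSet {x | 0 < c x} := (isOpen_lt continuous_const hc.cont).measurableSet
  have s : Smooth fun y => sw 0 (c y) := (sm_sw 0).compM hc
  rw [integral_eq_lintegral_of_nonneg_ae (.of_forall fun x => mul_nonneg (sq_nonneg _)
    (dens_nonneg _ _)) (((hG.cont_gn s.one).pow 2).mul hG.sm_dens.cont).aestronglyMeasurable]
  refine ENNReal.toReal_le_of_le_ofReal (by positivity) (le_trans (lintegral_mono (g := indicator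
    {x | 0 < c x} fun x => ENNReal.ofReal ((4 * DD * L) ^ 2) * ENNReal.ofReal (dens G x))
      fun x => ?_) ?_)
  · by_cases h : 0 < c x
    · rw [indicator_of_mem (by exact h), ← ENNReal.ofReal_mul (sq_nonneg _)]
      exact ENNReal.ofReal_le_ofReal (mul_le_mul_of_nonneg_right
        (pow_le_pow_left₀ (gn_nonneg _ _ _) (gn_sw_le hc 0 (gr x)) 2) (dens_nonneg _ _))
    · rw [gn_sw_zero hc (by linarith)]
      simp
  · rw [lintegral_indicator m, lintegral_const_mul' _ _ ENNReal.ofReal_ne_top,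
      ENNReal.ofReal_mul (sq_nonneg _)]
    exact mul_le_mul_right vol _

/-- the potential of a bump -/
theorem pot0 (hS : SUBS) (hn : 3 ≤ n) (hg : Met g) (hf : Flat g ρ) (hv : Wa g v)
    (ha : Asy v a β) (hc : Smooth c) (gr : ∀ x, gn (cf v g) c x ≤ L) (A0 : 0 ≤ A)
    (vol : ∫⁻ x in {x | 0 < c x}, ENNReal.ofReal (dens (cf v g) x) ≤ ENNReal.ofReal A)
    (out : ∀ x, ρ ≤ ‖px x‖ → c x ≤ 0) : ∃ u B, Smooth u ∧ (∀ x, 0 ≤ u x ∧ wl g v u x ≤ 0 ∧
      (3 / 4 ≤ c x → 3 / 4 ≤ u x) ∧ (ρ ≤ ‖px x‖ → wl g v u x = 0)) ∧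
      Asy (fun x => v x * u x) 0 B ∧ (n - 2) * omega n * a * B ≤ (4 * DD * L) ^ 2 * A := by
  have sv := hv.wt.sm
  have v0 := hv.wt.pos
  have sη : Smooth fun x => 1 - 3 / 4 * sw 2 (c x) :=
    CD.sub cd_const (CD.mul cd_const ((sm_sw 2).compM hc))
  have eη : ∀ x, 4 * c x ≤ 2 → 1 - 3 / 4 * sw 2 (c x) = 1 := fun x h => by
    rw [sw_zero h, mul_zero, sub_zero]
  have zη : ∀ x, 4 * c x < 2 → wl g v (fun x => 1 - 3 / 4 * sw 2 (c x)) x = 0 := fun x h => by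
    rw [wl_congr EventuallyEq.rfl (((continuous_const.mul hc.cont).continuousAt.eventually_lt
      continuousAt_const h).mono fun y hy => eη y hy.le), wl_const]
  obtain ⟨K, K0, hK⟩ := bdd_of_out (hg.sm_wl sv sη).cont (R := ρ) (C := 0) fun y hy => by
    rw [zη y (by linarith [out y hy.le]), norm_zero]
  have sV : Smooth fun x => 4 * K * sw 1 (c x) := CD.mul cd_const ((sm_sw 1).compM hc)
  have V0 : ∀ x, 0 ≤ 4 * K * sw 1 (c x) := fun x => mul_nonneg (by positivity) (sw_nn _ _)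
  have V1 : ∀ x, ρ ≤ ‖px x‖ → 4 * K * sw 1 (c x) = 0 := fun x hx => by
    rw [sw_zero (by linarith [out x hx]), mul_zero]
  obtain ⟨y, γ, H, -, y0, hy, ay, -⟩ := hv.sch hS hn hg hf ha sV V0 V1
  have h1 := hg.cmp_ends (by omega) sv v0 V0 H.sm.two sη.two (fun x => by
    rw [hy, sub_self, sub_nonpos]
    rcases lt_or_ge (4 * c x) 2 with h | h
    · rw [zη x h, eη x h.le, mul_one]
      exact V0 x
    · rw [sw_one (by linarith), mul_one]
      nlinarith [(le_abs_self _).trans (hK x), sw_le 2 (c x)]) (H.tendsto hn)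
    (d := fun _ => 1) (fun j => tendsto_cocompact_iff.1 (tendsto_const_nhds.congr'
      (ev_cocompact.2 ⟨ρ, fun x hx => (eη x (by linarith [out x hx])).symm⟩)) j) fun _ => le_rfl
  have h2 := H.dirichlet hn hg hf sV.cont V0 V1 hy (φ := fun x => 1 - sw 0 (c x))
    (Smooth.llip (CD.sub cd_const ((sm_sw 0).compM hc))) (R := ρ) fun x hx => by
      rw [sw_zero (by linarith [out x hx]), sub_zero]
  have h3 : ∀ x, 4 * K * sw 1 (c x) * (1 - sw 0 (c x)) ^ 2 * dens g x = 0 := fun x => by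
    rcases le_total (4 * c x) 1 with h | h
    · simp [sw_zero h]
    · simp [sw_one (k := 0) (t := c x) (by linarith)]
  have h4 : ∀ (φ : M → ℝ) x, v x ^ 2 * ip g φ φ x * dens g x =
      ip (cf v g) φ φ x * dens (cf v g) x := fun φ x => by
    rw [hg.ip_cf (v0 x), dens_cf (v0 x), n_bb hn, Real.rpow_add (v0 x), Real.rpow_neg (v0 x).le,
      Real.rpow_two]
    have := (Real.rpow_pos_of_pos (v0 x) (2 * bb n)).ne'
    field_simp
  simp only [h3, h4, integral_zero, zero_add, fx, one_mul] at h2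
  refine ⟨fun x => 1 - y x, β - γ, CD.sub cd_const H.sm, fun x => ⟨by linarith [(y0 x).2], ?_,
    fun h => ?_, fun h => ?_⟩, ?_, h2.trans (ener_bump (hg.cf sv v0) hc gr A0 vol)⟩
  · rw [wl_const_sub, hy, neg_nonpos]
    exact mul_nonneg (V0 x) (y0 x).1.le
  · have := h1 x
    rw [sw_one (by linarith)] at this
    linarith
  · rw [wl_const_sub, hy, V1 x h, zero_mul, neg_zero]
  · have := ha.lin ay sv (CD.mul H.sm sv) 1 (-1)
    simp only [one_mul, neg_mul, add_neg_cancel, ← sub_eq_add_neg] at this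
    exact this.congr (R := 0) fun x _ => by ring

theorem pow_bb (hn : 3 ≤ n) {k l t : ℝ} (k0 : 0 < k) (l0 : 0 < l) (t0 : 0 < t)
    (h : k ≤ l * t ^ bb n) : (k / l) ^ (((n : ℝ) - 2) / 2) ≤ t := by
  have := nm2_pos hn
  refine (Real.rpow_le_rpow (by positivity) ((div_le_iff₀' l0).2 h) (by positivity)).trans_eq ?_
  rw [← Real.rpow_mul t0.le, show bb n * ((n - 2) / 2) = 1 by linarith [nm2_bb hn], Real.rpow_one]

theorem pow_bb' (hn : 3 ≤ n) {k l t : ℝ} (l0 : 0 < l) (t0 : 0 < t)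
    (h : l * t ^ bb n ≤ k) : t ≤ (k / l) ^ (((n : ℝ) - 2) / 2) := by
  have := nm2_pos hn
  refine le_of_eq_of_le ?_ (Real.rpow_le_rpow (by positivity) ((le_div_iff₀' l0).2 h)
    (by positivity))
  rw [← Real.rpow_mul t0.le, show bb n * ((n - 2) / 2) = 1 by linarith [nm2_bb hn], Real.rpow_one]

/-- the potential of a bump is small on an annulus -/
theorem pot (hS : SUBS) (hn : 3 ≤ n) {R w k₀ : ℝ} (q : ℝ) (R0 : 0 < R) (w0 : 0 < w)
    (k0 : 0 < k₀) : ∃ C > (0 : ℝ), ∀ (M : Type) [Mfe n M] (g : Fld n M) (v : M → ℝ) (O : Set M)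
      (P : M → ℝ) (l k₁ L A : ℝ) (c : M → ℝ), Sf g v O P l R (R + 4 * w) q k₀ k₁ → Smooth c →
      (∀ x, gn (cf v g) c x ≤ L) → 0 ≤ A →
      ∫⁻ x in {x | 0 < c x}, ENNReal.ofReal (dens (cf v g) x) ≤ ENNReal.ofReal A →
      (∀ x, l * R ≤ ‖px x‖ → c x ≤ 0) → ∃ u, Smooth u ∧ ∀ x, 0 ≤ u x ∧ wl g v u x ≤ 0 ∧
        (3 / 4 ≤ c x → 3 / 4 ≤ u x) ∧
        (l * (R + w) ≤ ‖px x‖ → ‖px x‖ ≤ l * (R + 2 * w) → u x ≤ C * (L ^ 2 * A)) := by
  obtain ⟨C, C0, hC⟩ := P366H.far hn R0 w0 (abs_nonneg q)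
  have n2 := nm2_pos hn
  have o0 := omega_pos (n := n) (by omega)
  have D0 : 0 < DD := by linarith [DD_ge]
  refine ⟨C * (4 * DD) ^ 2 / ((n - 2) * omega n * k₀ ^ ((n : ℝ) - 2)), by positivity,
    fun M _ g v O P l k₁ L A c H hc gr A0 vol out => ?_⟩
  obtain ⟨a, β, ha⟩ := H.asy
  obtain ⟨u, B, su, hu, aB, hB⟩ := pot0 hS hn H.met H.flat H.wa ha hc gr A0 vol out
  have sv := H.wa.wt.sm
  have v0 := H.wa.wt.pos
  have l0 := H.l0
  have r1 := H.flat.R
  have lo : ∀ x, l * R ≤ ‖px x‖ → (k₀ / l) ^ (((n : ℝ) - 2) / 2) ≤ v x := fun x hx =>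
    pow_bb hn k0 l0 (v0 x) (H.far x hx).2.1
  have : (cocompact M).NeBot := cocompact_neBot_iff.2 ⟨not_compact (n := n) (by omega)⟩
  have la : (k₀ / l) ^ (((n : ℝ) - 2) / 2) ≤ a :=
    ge_of_tendsto (ha.tendsto hn) (ev_cocompact.2 ⟨_, lo⟩)
  have B0 : 0 ≤ B := aB.nonneg hn (R := 0) fun x _ => mul_nonneg (v0 x).le (hu x).1
  have sp : Smooth fun x => v x * u x := CD.mul sv su
  have h1 := hC l l0 _ B (sp.xfj Mfe.o 0) (asyE_xfj.1 (aB.asyE _)) fun y hy => by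
    have p : px (ye Mfe.o y : M) = y := px_ye' (by linarith)
    have p' : l * R ≤ ‖px (ye Mfe.o y : M)‖ := by rwa [p]
    obtain ⟨f1, -, -, f2⟩ := H.far _ p'
    rw [← lap_xfj (by linarith), xfj_eq (by linarith), ← H.flat.lap_eq' (by omega) H.met sp p',
      H.met.lap_mul_wl (sv.c2 _) (su.c2 _) (v0 _).ne', (hu _).2.2.2 p', zero_div, add_zero]
    have u0 := (hu (ye Mfe.o y)).1
    have := v0 (ye Mfe.o y)
    refine ⟨by positivity, mul_nonpos_of_nonneg_of_nonpos u0 f1, fun h => ?_⟩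
    rw [abs_of_nonpos (mul_nonpos_of_nonneg_of_nonpos u0 f1)]
    have f3 := mul_le_mul_of_nonneg_left (f2 (by rwa [p])) u0
    have f4 : q / l ^ 2 * (v (ye Mfe.o y) * u (ye Mfe.o y)) ≤
        |q| / l ^ 2 * (v (ye Mfe.o y) * u (ye Mfe.o y)) := by gcongr; exact le_abs_self q
    linarith
  refine ⟨u, su, fun x => ⟨(hu x).1, (hu x).2.1, (hu x).2.2.1, fun x1 x2 => ?_⟩⟩
  have x0 : l * R ≤ ‖px x‖ := by nlinarith
  have h2 := h1 _ x1 x2
  rw [xfj_eq (by linarith), show (ye Mfe.o (px x) : M) = x from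
    yp_px (by linarith)] at h2
  have m0 : 0 < (k₀ / l) ^ (((n : ℝ) - 2) / 2) := by positivity
  have e : (k₀ / l) ^ (((n : ℝ) - 2) / 2) * (k₀ / l) ^ (((n : ℝ) - 2) / 2) =
      k₀ ^ ((n : ℝ) - 2) * l ^ (2 - n : ℝ) := by
    rw [← Real.rpow_add (by positivity), add_halves, Real.div_rpow k0.le l0.le,
      show (2 - n : ℝ) = -(n - 2) by ring, Real.rpow_neg l0.le, div_eq_mul_inv]
  have l2 : 0 < l ^ (2 - n : ℝ) := by positivity
  have h3 : (k₀ / l) ^ (((n : ℝ) - 2) / 2) * ((k₀ / l) ^ (((n : ℝ) - 2) / 2) * u x) ≤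
      a * (C * (B * l ^ (2 - n : ℝ))) := mul_le_mul la
    ((mul_le_mul_of_nonneg_right (lo x x0) (hu x).1).trans h2) (mul_nonneg m0.le (hu x).1)
      (m0.le.trans la)
  rw [← mul_assoc, e] at h3
  have h4 : k₀ ^ ((n : ℝ) - 2) * u x ≤ C * (a * B) := le_of_mul_le_mul_right (by linarith) l2
  rw [div_mul_eq_mul_div, le_div_iff₀ (by positivity)]
  nlinarith [mul_le_mul_of_nonneg_left h4 (mul_pos n2 o0).le, mul_le_mul_of_nonneg_left hB C0.le]

end Vale.Agent.P366M.G
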