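import Vale.Agent.P366H.Shf1

/-!
# P366H: the weight
-/

open MeasureTheory Metric Filter Topology Set
open scoped ContDiff
open Vale.Agent.P366 Vale.Agent.P366.Stmt Vale.Agent.P366Z
open Vale.Agent.P366H (sm_st hd0 s1 s2 s1_nn s1_zero s1_le s2_le DD DD_ge hd1)

noncomputable section

namespace Vale.Agent.P366M.G

variable {n : ℕ}

theorem fc_le' {η' η'' t b : ℝ} {f : ℝ → ℝ} (h : Fc η' η'' f) (h0 : 0 < η') (b0 : 0 ≤ b)
    (ht : t ≤ b) : f t ≤ b := by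
  rcases le_total t η' with k | k
  · rwa [h.zero t k]
  · have := image_sub_le_mul_sub_of_deriv_le (h.sm.differentiable (by simp))
      (fun t => (h.d1 t).2) k
    rw [h.zero _ le_rfl] at this
    linarith

/-- the gluing of a supersolution inside to a cut-off function outside -/
theorem glue {M : Type} [Mfe n M] {G : Fld n M} (hG : Met G) {o b : M → ℝ} (so : Smooth o)
    (sb : Smooth b) {η r₁ r₂ e : ℝ} (η0 : 0 < η) (r12 : r₁ < r₂) (e0 : 0 ≤ e)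
    (o0 : ∀ x, 0 ≤ o x ∧ lap G o x ≤ 0) (b0 : ∀ x, 0 ≤ b x)
    (lb : ∀ x, r₁ ≤ ‖px x‖ → lap G b x ≤ e)
    (ann : ∀ x, r₁ ≤ ‖px x‖ → ‖px x‖ ≤ r₂ → 2 * η ≤ b x - o x) : ∃ W, Smooth W ∧ ∀ x, 1 ≤ W x ∧
      lap G W x ≤ e ∧ (r₁ < ‖px x‖ → b x = 0 → W x = 1) ∧ (‖px x‖ ≤ r₁ → o x ≤ W x) := by
  obtain ⟨η', f, F⟩ := UpdH.ex_fc η0
  have sd : Smooth fun x => b x - o x := CD.sub sb so
  have sf : Smooth fun x => f (b x - o x) := F.sm.compM sd
  have s1 : Smooth fun x => o x + (1 + η') := CD.add so cd_const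
  have s2 : Smooth fun x => b x - f (b x - o x) + 1 := CD.add (CD.sub sb sf) cd_const
  set W : M → ℝ := fun x => if ‖px x‖ ≤ r₁ then o x + (1 + η') else b x - f (b x - o x) + 1
    with hW
  have e1 : ∀ x, ‖px x‖ < r₂ → W =ᶠ[𝓝 x] fun x => o x + (1 + η') := fun x hx =>
    (ev_px_lt hx).mono fun y hy => by
      simp only [hW]
      split_ifs with h
      · rfl
      · rw [F.lin _ (ann y (not_le.1 h).le hy.le)]
        ring
  have e2 : ∀ x, r₁ < ‖px x‖ → W =ᶠ[𝓝 x] fun x => b x - f (b x - o x) + 1 := fun x hx =>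
    (ev_lt_px hx).mono fun y hy => if_neg (not_le.2 hy)
  refine ⟨W, (cd_iff le_rfl).2 fun x => ?_, fun x => ?_⟩
  · rcases lt_or_ge ‖px x‖ r₂ with h | h
    · exact ((cd_iff le_rfl).1 s1 x).congr_of_eventuallyEq (e1 x h)
    · exact ((cd_iff le_rfl).1 s2 x).congr_of_eventuallyEq (e2 x (r12.trans_le h))
  have η1 := F.le.1
  obtain ⟨o1, o2⟩ := o0 x
  refine ⟨?_, ?_, fun h k => ?_, fun h => ?_⟩
  · simp only [hW]
    split_ifs
    · linarith
    · linarith [fc_le' F η0 (b0 x) (t := b x - o x) (by linarith)]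
  · rcases lt_or_ge ‖px x‖ r₂ with h | h
    · rw [lap_congr (e1 x h), lap_add_const]
      linarith
    · rw [lap_congr (e2 x (r12.trans_le h)), lap_add_const, hG.lap_sub (sb.c2 x) (sf.c2 x),
        hG.lap_comp (sd.c2 x) (F.sm.contDiffAt.of_le two_le_oo), hG.lap_sub (sb.c2 x) (so.c2 x)]
      obtain ⟨d0, d1⟩ := F.d1 (b x - o x)
      nlinarith [mul_nonneg (F.d2 (b x - o x)) (hG.ip_nonneg (fun x => b x - o x) x),
        mul_le_mul_of_nonneg_left (lb x (r12.le.trans h)) (sub_nonneg.2 d1),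
        mul_nonneg d0 e0, mul_nonneg d0 (neg_nonneg.2 o2)]
  · rw [(e2 x h).self_of_nhds]
    dsimp only
    rw [k, F.zero _ (by linarith)]
    ring
  · rw [(e1 x (h.trans_lt r12)).self_of_nhds]
    linarith

theorem hd_aff (α γ t : ℝ) : HasDerivAt (fun t => α - γ * t) (-γ) t := by
  simpa using ((hasDerivAt_id t).const_mul γ).const_sub α

theorem lap_cutb {M : Type} [Mfe n M] {x : M} (hx : R0 M < ‖px x‖) (α : ℝ) {γ : ℝ} (γ0 : 0 ≤ γ) :
    lap (eu n) (fun y => Real.smoothTransition (α - γ * ‖px y‖ ^ 2)) x ≤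
      4 * ‖px x‖ ^ 2 * (γ ^ 2 * DD) := by
  have d : deriv (fun t => Real.smoothTransition (α - γ * t)) = fun t => s1 (α - γ * t) * -γ :=
    funext fun t => ((hd0 _).comp t (hd_aff α γ t)).deriv
  have d2 : ∀ t, deriv (fun t => s1 (α - γ * t) * -γ) t = s2 (α - γ * t) * -γ * -γ := fun t =>
    (((hd1 _).comp _ (hd_aff α γ _)).mul_const (-γ)).deriv
  rw [lap_eu_sq (φ := fun t => Real.smoothTransition (α - γ * t)) hx
    ((sm_st.of_le two_le_oo).comp (by fun_prop)).contDiffAt, d, d2]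
  dsimp only
  have h1 := mul_nonneg (mul_nonneg (Nat.cast_nonneg n) (s1_nn (α - γ * ‖px x‖ ^ 2))) γ0
  have h2 := mul_le_mul_of_nonneg_left ((le_abs_self _).trans (s2_le (α - γ * ‖px x‖ ^ 2)))
    (by positivity : 0 ≤ 4 * ‖px x‖ ^ 2 * γ ^ 2)
  linarith

/-- the cut-off function -/
theorem cutb (hn : 3 ≤ n) {R w k₀ : ℝ} (q k₁ : ℝ) (R0 : 0 < R) (w0 : 0 < w) (k0 : 0 < k₀) :
    ∃ K > (0 : ℝ), ∀ (M : Type) [Mfe n M] (g : Fld n M) (v : M → ℝ) (O : Set M) (P : M → ℝ)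
      (l : ℝ), Sf g v O P l R (R + 4 * w) q k₀ k₁ → ∃ b, Smooth b ∧ ∀ x, 0 ≤ b x ∧
        (l * R ≤ ‖px x‖ → lap (cf v g) b x ≤ K ∧ (‖px x‖ ≤ l * (R + 2 * w) → 1 ≤ b x) ∧
          (l * (R + 3 * w) ≤ ‖px x‖ → b x = 0)) := by
  obtain ⟨Δ, hΔ⟩ : ∃ Δ, Δ = (R + 3 * w) ^ 2 - (R + 2 * w) ^ 2 := ⟨_, rfl⟩
  have Δ0 : 0 < Δ := by nlinarith
  have D0 : 0 < DD := by linarith [DD_ge]
  have n2 := nm2_pos hn
  obtain ⟨K, hK⟩ : ∃ K, K = 4 * (R + 4 * w) ^ 2 * DD / Δ ^ 2 + |q| := ⟨_, rfl⟩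
  have K0 : 0 < K := by rw [hK]; positivity
  refine ⟨((|k₁| + 1) / k₀) ^ (((n : ℝ) - 2) / 2) * K / k₀ ^ 2, by positivity,
    fun M _ g v O P l H => ?_⟩
  have sv := H.wa.wt.sm
  have v0 := H.wa.wt.pos
  have l0 := H.l0
  obtain ⟨κ, hκ⟩ : ∃ κ, κ = ((|k₁| + 1) / l) ^ (((n : ℝ) - 2) / 2) := ⟨_, rfl⟩
  have κ0 : 0 < κ := by rw [hκ]; positivity
  obtain ⟨B, hB⟩ : ∃ B : M → ℝ, B = fun y => Real.smoothTransition
    ((R + 3 * w) ^ 2 / Δ - (l ^ 2 * Δ)⁻¹ * ‖px y‖ ^ 2) := ⟨_, rfl⟩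
  have sB : Smooth B := hB ▸ sm_st.compM (CD.sub cd_const (CD.mul cd_const contDiff_normSq))
  have B0 : ∀ y, 0 ≤ B y ∧ B y ≤ 1 := fun y =>
    hB ▸ ⟨Real.smoothTransition.nonneg _, Real.smoothTransition.le_one _⟩
  have eB : ∀ y : M, (R + 3 * w) ^ 2 / Δ - (l ^ 2 * Δ)⁻¹ * ‖px y‖ ^ 2 =
      ((l * (R + 3 * w)) ^ 2 - ‖px y‖ ^ 2) / (l ^ 2 * Δ) := fun y => by field_simp
  have Bz : ∀ y, l * (R + 3 * w) ≤ ‖px y‖ → B y = 0 := fun y hy => by
    rw [hB]
    refine Real.smoothTransition.zero_of_nonpos ?_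
    rw [eB]
    exact div_nonpos_of_nonpos_of_nonneg (sub_nonpos.2 (by gcongr)) (by positivity)
  have sq : Smooth fun y => B y / v y := CD.div sB sv fun y => (v0 y).ne'
  refine ⟨fun y => κ * (B y / v y), CD.mul cd_const sq, fun x => ⟨mul_nonneg κ0.le
    (div_nonneg (B0 x).1 (v0 x).le), fun hx => ⟨?_, fun h => ?_, fun h => by
      simp only [Bz x h, zero_div, mul_zero]⟩⟩⟩
  · rw [lap_const_mul]
    rcases lt_or_ge (l * (R + 4 * w)) ‖px x‖ with h | h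
    · rw [lap_congr (v := fun _ => 0) ((ev_lt_px h).mono fun y hy => by
        simp only [Bz y (by nlinarith), zero_div]), lap_const, mul_zero]
      positivity
    obtain ⟨f1, f2, -, f4⟩ := H.far x hx
    have h1 := H.met.mul_lap_mul (sv.c2 x) (sq.c2 x)
    have vx := v0 x
    simp only [mul_div_cancel₀ _ (v0 _).ne'] at h1
    have h2 : lap g B x ≤ 4 * (R + 4 * w) ^ 2 * DD / Δ ^ 2 / l ^ 2 := by
      rw [H.flat.lap_eq' (by omega) H.met sB hx, hB]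
      refine (lap_cutb (H.flat.far hx) _ (by positivity)).trans (le_of_le_of_eq
        (b := 4 * (l * (R + 4 * w)) ^ 2 * ((l ^ 2 * Δ)⁻¹ ^ 2 * DD)) (by gcongr) ?_)
      field_simp
    have h3 : -lap g v x ≤ |q| / l ^ 2 * v x := by
      have : q / l ^ 2 * v x ≤ |q| / l ^ 2 * v x := by gcongr; exact le_abs_self q
      linarith [f4 h]
    have h4 : wl g v (fun y => B y / v y) x ≤ v x * (K / l ^ 2) := by
      rw [hK, add_div]
      nlinarith [mul_le_mul_of_nonneg_left h2 vx.le, B0 x,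
        mul_le_mul_of_nonneg_right (B0 x).2 (neg_nonneg.2 f1)]
    have h5 : κ ≤ ((|k₁| + 1) / k₀) ^ (((n : ℝ) - 2) / 2) * v x := by
      refine le_of_eq_of_le ?_ (mul_le_mul_of_nonneg_left (pow_bb hn k0 l0 vx f2) (by positivity))
      rw [hκ, ← Real.mul_rpow (by positivity) (by positivity)]
      congr 1
      field_simp
    have p0 : 0 < v x ^ bb n := by positivity
    rw [H.met.lap_cf hn v0, n_bb hn, Real.rpow_neg vx.le, Real.rpow_add vx, Real.rpow_two,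
      mul_comm 2 (bb n), Real.rpow_mul vx.le, Real.rpow_two]
    calc _ ≤ ((|k₁| + 1) / k₀) ^ (((n : ℝ) - 2) / 2) * v x * ((v x ^ 2 * (v x ^ bb n) ^ 2)⁻¹ *
          (v x * (K / l ^ 2))) := (mul_le_mul_of_nonneg_left (mul_le_mul_of_nonneg_left h4
            (by positivity)) κ0.le).trans (mul_le_mul_of_nonneg_right h5 (by positivity))
      _ = ((|k₁| + 1) / k₀) ^ (((n : ℝ) - 2) / 2) * K / (l * v x ^ bb n) ^ 2 := by field_simp
      _ ≤ _ := by gcongr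
  · have b1 : B x = 1 := by
      rw [hB]
      refine Real.smoothTransition.one_of_one_le ?_
      rw [eB, one_le_div (by positivity), hΔ]
      nlinarith [pow_le_pow_left₀ (norm_nonneg _) h 2]
    simp only [b1]
    rw [mul_one_div, one_le_div (v0 x), hκ]
    exact pow_bb' hn l0 (v0 x) (by linarith [(H.far x hx).2.2.1, le_abs_self k₁])

theorem Cov.mono {M : Type} [Mfe n M] {g : Fld n M} {C δ δ' R : ℝ} {N : ℕ} {s : Fin N → ℝ}
    {c : Fin N → M → ℝ} (H : Cov g C δ R s c) (h : δ ≤ δ') : Cov g |C| δ' R s c where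
  s0 j := ⟨(H.s0 j).1, (H.s0 j).2.trans h⟩
  sum := H.sum.trans h
  sm := H.sm
  gr j x := (H.gr j x).trans (div_le_div_of_nonneg_right (le_abs_self C) (H.s0 j).1.le)
  vol j := (H.vol j).trans (ENNReal.ofReal_le_ofReal
    (mul_le_mul_of_nonneg_right (le_abs_self C) (pow_pos (H.s0 j).1 n).le))
  out := H.out

theorem wl_sum {M : Type} [Mf0 n M] {g : Fld n M} (hg : Met g) {v : M → ℝ} (hv : Smooth v)
    {ι : Type} (t : Finset ι) {u : ι → M → ℝ} (su : ∀ j, Smooth (u j)) {x : M}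
    (hu : ∀ j, wl g v (u j) x ≤ 0) : wl g v (fun y => ∑ j ∈ t, u j y) x ≤ 0 := by
  classical
  induction t using Finset.induction_on with
  | empty => simp [wl_const]
  | insert a t ha ih =>
    simp only [Finset.sum_insert ha]
    rw [hg.wl_add (hv.diff x) ((su a).c2 x) (Smooth.c2 (CD.sum fun j _ => su j) x)]
    linarith [hu a]

/-- the weight -/
theorem wgt (hS : SUBS) (hn : 3 ≤ n) {R w k₀ e C : ℝ} (q k₁ : ℝ) (R0 : 0 < R) (w0 : 0 < w)
    (k0 : 0 < k₀) (e0 : 0 < e) (C0 : 0 ≤ C) : ∃ δ > (0 : ℝ), ∀ (M : Type) [Mfe n M] (g : Fld n M)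
      (v : M → ℝ) (O : Set M) (P : M → ℝ) (l : ℝ) (N : ℕ) (s : Fin N → ℝ) (c : Fin N → M → ℝ),
      Sf g v O P l R (R + 4 * w) q k₀ k₁ → Cov (cf v g) C δ (l * R) s c → ∃ W, Smooth W ∧ ∀ x,
        1 ≤ W x ∧ lap (cf v g) W x ≤ e ∧ (l * (R + 3 * w) ≤ ‖px x‖ → W x = 1) ∧
          ∑ j, (if 3 / 4 ≤ c j x then (s j ^ 2)⁻¹ else 0) ≤ 2 * W x := by
  obtain ⟨C₁, c1, h1⟩ := pot hS hn q R0 w0 k0
  obtain ⟨K, K0, h2⟩ := cutb hn q k₁ R0 w0 k0
  refine ⟨e / K / 2 / (C₁ * C ^ 3 + 1), by positivity, fun M _ g v O P l N s c H hc => ?_⟩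
  obtain ⟨b, sb, hb⟩ := h2 M g v O P l H
  have s0 := fun j => (hc.s0 j).1
  choose u su hu using fun j => h1 M g v O P l k₁ _ _ _ H (hc.sm j) (hc.gr j)
    (mul_nonneg C0 (pow_pos (s0 j) n).le) (hc.vol j) (hc.out j)
  have l0 := H.l0
  have sv := H.wa.wt.sm
  have v0 := H.wa.wt.pos
  have su' : ∀ j, Smooth fun y => (s j ^ 2)⁻¹ * u j y := fun j => CD.mul cd_const (su j)
  have u0 : ∀ j x, 0 ≤ (s j ^ 2)⁻¹ * u j x := fun j x => mul_nonneg (by positivity) (hu j x).1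
  obtain ⟨W, sW, hW⟩ := glue (H.met.cf sv v0) (o := fun y => ∑ j, (s j ^ 2)⁻¹ * u j y)
    (b := fun y => e / K * b y) (CD.sum fun j _ => su' j) (CD.mul cd_const sb) (η := e / K / 4)
    (r₁ := l * (R + w)) (r₂ := l * (R + 2 * w)) (by positivity) (by nlinarith) e0.le
    (fun x => ⟨Finset.sum_nonneg fun j _ => u0 j x, by
      rw [H.met.lap_cf hn v0]
      exact mul_nonpos_of_nonneg_of_nonpos (Real.rpow_pos_of_pos (v0 x) _).le
        (wl_sum H.met sv _ su' fun j => by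
          rw [wl_const_mul]
          exact mul_nonpos_of_nonneg_of_nonpos (by positivity) (hu j x).2.1)⟩)
    (fun x => mul_nonneg (by positivity) (hb x).1) (fun x hx => by
      rw [lap_const_mul]
      exact (mul_le_mul_of_nonneg_left ((hb x).2 (by nlinarith)).1 (by positivity)).trans_eq
        (div_mul_cancel₀ _ K0.ne')) fun x x1 x2 => by
    have k1 := mul_le_mul_of_nonneg_left (((hb x).2 (by nlinarith)).2.1 x2)
      (by positivity : 0 ≤ e / K)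
    have k2 : ∑ j, (s j ^ 2)⁻¹ * u j x ≤ C₁ * C ^ 3 * ∑ j, s j ^ ((n : ℝ) - 4) := by
      rw [Finset.mul_sum]
      refine Finset.sum_le_sum fun j _ => (mul_le_mul_of_nonneg_left ((hu j x).2.2.2 x1 x2)
        (by positivity)).trans_eq ?_
      have := (s0 j).ne'
      rw [Real.rpow_sub (s0 j), Real.rpow_natCast, show (4 : ℝ) = (4 : ℕ) by norm_num,
        Real.rpow_natCast]
      field_simp
    have k3 := mul_le_mul_of_nonneg_left hc.sum (by positivity : 0 ≤ C₁ * C ^ 3)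
    have k4 : C₁ * C ^ 3 * (e / K / 2 / (C₁ * C ^ 3 + 1)) ≤ e / K / 2 := by
      rw [mul_div_assoc', div_le_iff₀ (by positivity)]
      nlinarith [div_pos e0 K0]
    linarith
  refine ⟨W, sW, fun x => ⟨(hW x).1, (hW x).2.1, fun h => (hW x).2.2.1 (by nlinarith) (by
    simp only [((hb x).2 (by nlinarith)).2.2 h, mul_zero]), ?_⟩⟩
  rcases le_total ‖px x‖ (l * R) with h | h
  · have := (hW x).2.2.2 (by nlinarith)
    refine le_trans (Finset.sum_le_sum (g := fun j => 2 * ((s j ^ 2)⁻¹ * u j x)) fun j _ => ?_)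
      (by rw [← Finset.mul_sum]; linarith)
    split_ifs with k
    · nlinarith [(hu j x).2.2.1 k, inv_pos.2 (pow_pos (s0 j) 2)]
    · linarith [u0 j x]
  · rw [Finset.sum_eq_zero fun j _ => if_neg (by linarith [hc.out j x h])]
    linarith [(hW x).1]

end Vale.Agent.P366M.G
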