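import Vale.Agent.P366H.Amb
import Vale.Agent.P366H.Shield
import Vale.Agent.P366D.Map
import Mathlib.Analysis.InnerProductSpace.Positive

/-!
# P366H: the shield of the singular set of a hypersurface
-/

open Metric Filter Topology Set Matrix
open scoped ContDiff
open Vale.Agent.P366 Vale.Agent.P366.Stmt Vale.Agent.P366M Vale.Agent.P366D

noncomputable section

namespace Vale.Agent.P366H

variable {k n : ℕ}

theorem proj_le {G : Matrix (Fin n) (Fin n) ℝ} (hG : G.PosDef) {A : Matrix (Fin n) (Fin k) ℝ}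
    (hH : (Aᵀ * G * A).PosDef) (a : Fin n → ℝ) :
    (Aᵀ *ᵥ a) ⬝ᵥ (Aᵀ * G * A)⁻¹ *ᵥ (Aᵀ *ᵥ a) ≤ a ⬝ᵥ G⁻¹ *ᵥ a := by
  have u1 := isUnit_iff_ne_zero.2 hG.det_pos.ne'
  have u2 := isUnit_iff_ne_zero.2 hH.det_pos.ne'
  have sy : Gᵀ = G := hG.isHermitian
  set b := (Aᵀ * G * A)⁻¹ *ᵥ (Aᵀ *ᵥ a) with hb
  have e1 : (Aᵀ * G * A) *ᵥ b = Aᵀ *ᵥ a := by
    rw [hb, mulVec_mulVec, mul_nonsing_inv _ u2, one_mulVec]
  have e2 : ∀ c : Fin n → ℝ, (Aᵀ *ᵥ c) ⬝ᵥ b = c ⬝ᵥ A *ᵥ b := fun c => by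
    rw [mulVec_transpose, dotProduct_mulVec c]
  have e3 : (G *ᵥ (A *ᵥ b)) ⬝ᵥ A *ᵥ b = a ⬝ᵥ A *ᵥ b := by
    rw [← e2, ← e2, mulVec_mulVec, mulVec_mulVec, e1]
  have e4 : G⁻¹ *ᵥ (G *ᵥ (A *ᵥ b)) = A *ᵥ b := by
    rw [mulVec_mulVec, nonsing_inv_mul _ u1, one_mulVec]
  have e5 : (G *ᵥ (A *ᵥ b)) ⬝ᵥ G⁻¹ *ᵥ a = a ⬝ᵥ A *ᵥ b := by
    rw [dotProduct_mulVec, ← mulVec_transpose, transpose_nonsing_inv, sy, e4, dotProduct_comm]
  have h := hG.inv.posSemidef.dotProduct_mulVec_nonneg (a - G *ᵥ (A *ᵥ b))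
  rw [star_trivial, mulVec_sub, sub_dotProduct, dotProduct_sub, dotProduct_sub, e4, e3, e5] at h
  rw [e2]
  linarith

theorem pair_nonneg {U : Matrix (Fin k) (Fin k) ℝ} (hU : U.PosSemidef) {P : Fin k → Fin k → ℝ}
    (hP : ∀ ξ, 0 ≤ qf P ξ) : 0 ≤ ∑ i, ∑ j, U i j * P i j := by
  obtain ⟨m, v, rfl⟩ := posSemidef_iff_eq_sum_vecMulVec.1 hU
  refine le_of_le_of_eq (Finset.sum_nonneg (s := Finset.univ) fun l _ => hP (v l)) ?_
  simp only [qf, Matrix.sum_apply, vecMulVec_apply, star_trivial, Finset.sum_mul]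
  rw [Finset.sum_comm]
  refine Finset.sum_congr rfl fun i _ => ?_
  rw [Finset.sum_comm]
  exact Finset.sum_congr rfl fun j _ => Finset.sum_congr rfl fun l _ => by ring

variable {X : Type} [Mf0 n X] {Z : Type} [Mf0 k Z] {g T : Fld n X} {ι : Z → X} {z : Z}
  {f Q : X → ℝ}

/-- the tangential gradient is shorter than the gradient -/
theorem ip_res (hg : Met g) (hZ : Met (pull ι g)) (h : SmM ι z) (hQ : DAt Q (ι z)) :
    ip (pull ι g) (fun z => Q (ι z)) (fun z => Q (ι z)) z ≤ ip g Q Q (ι z) := by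
  have := proj_le (hg.pos (ι z)) (mat_pull ι g z ▸ hZ.pos z) fun a => P366M.pd a Q (ι z)
  rw [← mat_pull, ← quad_dot, ← quad_dot] at this
  unfold P366M.ip
  simp only [h.pd hQ]
  exact this

theorem gn_res (hg : Met g) (hZ : Met (pull ι g)) (h : SmM ι z) (hQ : DAt Q (ι z)) :
    gn (pull ι g) (fun z => Q (ι z)) z ≤ gn g Q (ι z) := Real.sqrt_le_sqrt (ip_res hg hZ h hQ)

theorem qf_pull (ι : Z → X) (T : Fld n X) (z : Z) (ξ : Fin k → ℝ) :
    qf (pull ι T z) ξ = qf (T (ι z)) (jm ι z *ᵥ ξ) := by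
  have e : pull ι T z = (jm ι z)ᵀ * P366M.mat T (ι z) * jm ι z := mat_pull ι T z
  unfold qf
  rw [e, quad_dot, quad_dot (T (ι z)), ← mulVec_mulVec, ← mulVec_mulVec, dotProduct_mulVec,
    vecMul_transpose]
  rfl

theorem tr_self {g : Fld k Z} (hg : Met g) (z : Z) : P366M.tr g g z = k := by
  unfold P366M.tr
  rw [Finset.sum_congr rfl fun i _ => (Finset.sum_congr rfl fun j _ => by rw [hg.sy]).trans
    (hg.up_mul i i z)]
  simp

theorem tr_res (hZ : Met (pull ι g)) {c : ℝ} (h : ∀ ξ, c * qf (g (ι z)) ξ ≤ qf (T (ι z)) ξ) :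
    c * k ≤ P366M.tr (pull ι g) (pull ι T) z := by
  have := pair_nonneg (hZ.inv_pos z).posSemidef (P := fun i j => pull ι T z i j - c * pull ι g z i j)
    fun ξ => by
      have e := h (jm ι z *ᵥ ξ)
      rw [← qf_pull, ← qf_pull, ← sub_nonneg] at e
      refine e.trans_eq ?_
      simp only [qf, Finset.mul_sum, ← Finset.sum_sub_distrib]
      exact Finset.sum_congr rfl fun i _ => Finset.sum_congr rfl fun j _ => by ring
  rw [← tr_self hZ z, ← sub_nonneg]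
  refine this.trans_eq ?_
  simp only [P366M.tr, P366M.up, Finset.mul_sum, ← Finset.sum_sub_distrib]
  exact Finset.sum_congr rfl fun i _ => Finset.sum_congr rfl fun j _ => by ring

/-- a small set is covered by few small balls -/
theorem cover (hg : Met g) {S U K : Set X} {η : ℝ} (hη : 0 < η) (hK : IsCompact K)
    (hU : ∀ p ∈ K, U ∈ 𝓝 p) (nul : ∀ e ∈ At X, Null ((k : ℝ) - 15 / 4) (e.symm ⁻¹' S)) :
    ∃ r₀ > (0 : ℝ), ∀ r, 0 < r → r ≤ r₀ → ∀ δ > (0 : ℝ), ∃ (J : Type) (_ : Fintype J) (s : J → ℝ)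
      (Q : J → X → ℝ), Rad k δ s ∧ (∀ j, Aq g η r (Q j) ∧ ∀ x ∉ U, r ^ 2 ≤ Q j x) ∧
        ∀ x ∈ K ∩ S, ∃ j, Q j x ≤ s j ^ 2 := by
  refine hK.induction_on (p := fun K => ∃ r₀ > (0 : ℝ), ∀ r, 0 < r → r ≤ r₀ → ∀ δ > (0 : ℝ),
    ∃ (J : Type) (_ : Fintype J) (s : J → ℝ) (Q : J → X → ℝ), Rad k δ s ∧
      (∀ j, Aq g η r (Q j) ∧ ∀ x ∉ U, r ^ 2 ≤ Q j x) ∧ ∀ x ∈ K ∩ S, ∃ j, Q j x ≤ s j ^ 2)
    ⟨1, one_pos, fun r _ _ δ hδ => ⟨Empty, inferInstance, fun _ => 0, fun _ _ => 0,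
      ⟨fun j => j.elim, fun j => j.elim, by simpa using hδ.le⟩, fun j => j.elim, by simp⟩⟩
    (fun K K' h ⟨r₀, r0, H⟩ => ⟨r₀, r0, fun r a b δ c => ?_⟩)
    (fun K K' ⟨r₀, r0, H⟩ ⟨r₁, r1, H'⟩ => ⟨min r₀ r₁, lt_min r0 r1, fun r a b δ c => ?_⟩)
    fun p hp => ?_
  · obtain ⟨J, _, s, Q, k1, k2, k3⟩ := H r a b δ c
    exact ⟨J, _, s, Q, k1, k2, fun x hx => k3 x ⟨h hx.1, hx.2⟩⟩
  · obtain ⟨J, _, s, Q, k1, k2, k3⟩ := H r a (b.trans (min_le_left _ _)) (δ / 2) (half_pos c)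
    obtain ⟨J', _, s', Q', l1, l2, l3⟩ := H' r a (b.trans (min_le_right _ _)) (δ / 2) (half_pos c)
    refine ⟨J ⊕ J', inferInstance, Sum.elim s s', Sum.elim Q Q', ⟨Sum.forall.2 ⟨k1.pos, l1.pos⟩,
      Sum.forall.2 ⟨fun j => (k1.le j).trans (half_le_self c.le),
        fun j => (l1.le j).trans (half_le_self c.le)⟩, ?_⟩, Sum.forall.2 ⟨k2, l2⟩, ?_⟩
    · rw [Fintype.sum_sum_type]
      exact (add_le_add k1.sum l1.sum).trans_eq (add_halves δ)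
    · rintro x ⟨hx | hx, hS⟩
      · exact Sum.exists.2 (Or.inl (k3 x ⟨hx, hS⟩))
      · exact Sum.exists.2 (Or.inr (l3 x ⟨hx, hS⟩))
  obtain ⟨ρ, ρ0, μ, μ0, r₀, r0, H⟩ := exists_aq hg p hη (hU p hp)
  refine ⟨(ch p).symm '' closedBall (pt p) (ρ / 2), mem_nhdsWithin_of_mem_nhds
    (image_nhds p (closedBall_mem_nhds _ (half_pos ρ0))), r₀, r0, fun r a b δ c => ?_⟩
  have m1 : 0 < μ ^ ((k : ℝ) - 15 / 4) := Real.rpow_pos_of_pos μ0 _
  obtain ⟨t, t1, t2, t3⟩ := nul _ (ch_mem p) _ (isCompact_closedBall (pt p) (ρ / 2))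
    (min (min (δ / μ) (r / μ)) (min (ρ / 2) (δ / μ ^ ((k : ℝ) - 15 / 4)))) (by positivity)
  simp only [le_min_iff, le_div_iff₀ μ0, le_div_iff₀ m1] at t1 t3
  choose Q hQ using H r a b
  classical
  refine ⟨t.filter fun q => q.1 ∈ ball (pt p) ρ, inferInstance, fun j => μ * j.1.2,
    fun j => Q j.1.1 (Finset.mem_filter.1 j.2).2, ⟨fun j => ?_, fun j => ?_, ?_⟩,
    fun j => ⟨(hQ _ _).1, (hQ _ _).2.1⟩, ?_⟩
  · exact mul_pos μ0 (t1 _ (Finset.mem_filter.1 j.2).1).1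
  · linarith [(t1 _ (Finset.mem_filter.1 j.2).1).2.1.1]
  · rw [Finset.sum_coe_sort _ fun q : E n × ℝ => (μ * q.2) ^ ((k : ℝ) - 15 / 4)]
    refine (Finset.sum_le_sum_of_subset_of_nonneg (Finset.filter_subset _ _) fun q hq _ =>
      (Real.rpow_pos_of_pos (mul_pos μ0 (t1 q hq).1) _).le).trans (le_trans (le_of_eq ?_) t3.2.2)
    rw [Finset.sum_mul]
    exact Finset.sum_congr rfl fun q hq => by rw [Real.mul_rpow μ0.le (t1 q hq).1.le, mul_comm]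
  · rintro _ ⟨⟨y, hy, rfl⟩, hS⟩
    obtain ⟨q, hq, h1⟩ := mem_iUnion₂.1 (t2 ⟨hS, hy⟩)
    obtain ⟨q0, ⟨-, q1⟩, q2, -⟩ := t1 q hq
    rw [mem_ball] at h1
    rw [mem_closedBall] at hy
    have h2 : μ * ‖y - q.1‖ ≤ μ * q.2 := mul_le_mul_of_nonneg_left (dist_eq_norm y q.1 ▸ h1.le) μ0.le
    have h3 : μ * ‖y - q.1‖ ≤ r := by linarith
    refine ⟨⟨q, Finset.mem_filter.2 ⟨hq, ?_⟩⟩, ((hQ _ _).2.2 y h3).trans
      (pow_le_pow_left₀ (by positivity) h2 2)⟩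
    rw [mem_ball]
    linarith [dist_triangle_left q.1 (pt p) y]

theorem sq_of (hk : 1 ≤ k) (hg : Met g) (hf : P366M.Smooth f) (hZ : Met (pull ι g)) (sm : SmM ι z)
    {Λ F r : ℝ} (mc : Mc g ι Λ) {J : Type} {Q : J → X → ℝ} (hQ : ∀ j, Aq g (1 / (16 * k)) r (Q j))
    (rp : 0 < r) (r1 : r * (24 * (|Λ| + |F| + 1)) ≤ 1) (hF : gn g f (ι z) ≤ |F|) :
    Sq (rep (ch z) (pull ι g)) r (loc (ch z) fun z => f (ι z))
      (fun j => loc (ch z) fun z => Q j (ι z)) (pt z) := by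
  have k1 : (1 : ℝ) ≤ k := by exact_mod_cast hk
  refine ⟨fun j => sm.cAt two_le_oo ((hQ j).sm.c2 _), fun j => (hQ j).nn _, fun j h => ?_,
    fun j h => ?_⟩
  all_goals
    rw [loc_pt] at h
    have a1 := (hQ j).gr _ h
    have a2 := ip_res hg hZ sm ((hQ j).sm.diff _)
    rw [ip_pt]
  · rw [loc_pt]
    refine (a2.trans a1).trans (mul_le_mul_of_nonneg_right ?_ ((hQ j).nn _))
    rw [mul_add, mul_one, add_le_add_iff_left, mul_one_div, div_le_div_iff₀ (by positivity)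
      (by positivity)]
    linarith
  · have a3 := tr_res hZ ((hQ j).he _ h)
    have a4 := (abs_le.1 (mc _ (hQ j).sm z)).1
    have a5 := (abs_le.1 (hZ.abs_ip_le (fun z => f (ι z)) (fun z => Q j (ι z)) z)).1
    have a6 := (gn_res hg hZ sm (hf.diff _)).trans hF
    have a7 : gn g (Q j) (ι z) ≤ 3 * r := by
      refine Real.sqrt_le_iff.2 ⟨by positivity, a1.trans ?_⟩
      have : 1 / (16 * (k : ℝ)) ≤ 1 := by rw [div_le_one (by positivity)]; linarith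
      have := mul_le_mul_of_nonneg_right this ((hQ j).nn (ι z))
      linarith [sq_nonneg r]
    have a8 := mul_le_mul a6 ((gn_res hg hZ sm ((hQ j).sm.diff _)).trans a7)
      (gn_nonneg _ _ _) (abs_nonneg _)
    have a9 := mul_le_mul (le_abs_self Λ) a7 (gn_nonneg _ _ _) (abs_nonneg _)
    have a10 : 2 * (1 - 1 / (16 * (k : ℝ))) * k = 2 * k - 1 / 8 := by field_simp; ring
    change _ ≤ lap (pull ι g) (fun z => Q j (ι z)) z + _
    linarith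

/-- the shield `h` on `{w < 1}` and the factor `W` of the weight -/
structure Shz (g : Fld k Z) (f W w h : Z → ℝ) (v θ : ℝ) : Prop where
  smW : P366M.Smooth W
  smw : P366M.Smooth w
  W1 : ∀ z, 1 ≤ W z
  w0 : ∀ z, 0 ≤ w z
  smh : ∀ z, w z < 1 → CAt ∞ h z
  h0 : ∀ z, w z < 1 → 0 ≤ h z
  cls : ∀ T, ∃ c < 1, ∀ z, w z < 1 → h z ≤ T → w z ≤ c
  sup : ∀ z, lap g W z + ip g f W z ≤ v
  pos : ∀ z, w z < 1 → -v ≤ (gn g W z / W z) ^ 2 / 2 + h z ^ 2 - 2 * gn g h z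
  big : ∃ h₁, ∀ z, w z < 1 → h₁ ≤ h z → gn g h z ≤ θ * h z ^ 2

/-- **SHM** -/
theorem shm (hk : 1 ≤ k) (hg : Met g) (hf : P366M.Smooth f) {A S C : Set X} (cA : IsCompact A)
    (cS : IsClosed S) (nul : ∀ e ∈ At X, Null ((k : ℝ) - 15 / 4) (e.symm ⁻¹' S))
    (sub : Sub ι (A \ S)) {Λ : ℝ} (mc : Mc g ι Λ) (cC : IsClosed C) (hC : Disjoint C (A ∩ S))
    {v θ : ℝ} (hv : 0 < v) (hθ : 0 < θ) : ∃ W w h : Z → ℝ,
      Shz (pull ι g) (fun z => f (ι z)) W w h v θ ∧ (∀ c < 2, IsCompact {z | w z ≤ c}) ∧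
        ∀ z, ι z ∈ C → W z = 1 ∧ w z = 0 ∧ h z = 0 := by
  have hZ := sub.met hg
  have k0 : (0 : ℝ) < k := by exact_mod_cast hk
  have c0p := c0_pos k
  obtain ⟨r₀, r0, H⟩ := cover hg (η := 1 / (16 * k)) (by positivity) (cA.inter_right cS)
    (fun p hp => cC.isOpen_compl.mem_nhds fun h => disjoint_left.1 hC h hp) nul
  obtain ⟨F, hF⟩ := cA.exists_bound_of_continuousOn (hg.cont_gn hf.one).continuousOn
  have L0 : 0 < |Λ| + |F| + 1 := by positivity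
  set r := min r₀ (1 / (24 * (|Λ| + |F| + 1))) with hr
  have rp : 0 < r := by positivity
  have r1 : r * (24 * (|Λ| + |F| + 1)) ≤ 1 := (le_div_iff₀ (by positivity)).1 (min_le_right _ _)
  obtain ⟨ε, hε, δ, hδ, sh⟩ := shield k rp hv hθ
  obtain ⟨J, _, s, Q, rad, hQ, cov⟩ := H r rp (min_le_left _ _) δ hδ
  obtain ⟨s1, s2⟩ := sh J s rad
  obtain ⟨s2, h₁, s3⟩ := s2 (c0 k / 2) (by linarith) le_rfl
  have mem : ∀ z, ι z ∈ A \ S := fun z => sub.rng ▸ mem_range_self z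
  have smq : ∀ j z, CAt ∞ (fun z => Q j (ι z)) z := fun j z =>
    (sub.sm z).cAt le_rfl (CD.contDiffAt (hQ j).1.sm)
  have nn : ∀ z j, 0 ≤ Q j (ι z) := fun z j => (hQ j).1.nn _
  have nn' : ∀ z j, 0 ≤ loc (ch z) (fun z => Q j (ι z)) (pt z) := fun z j => (hQ j).1.nn _
  have sq := fun z => sq_of hk hg hf hZ (sub.sm z) mc (fun j => (hQ j).1) rp r1
    ((le_abs_self _).trans ((hF _ (mem z).1).trans (le_abs_self _)))
  have s4 := fun z => s3 _ _ _ _ (hZ.loc' z) (sq z)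
  have lt : ∀ t : ℝ, 2 / c0 k * t < 1 ↔ t < c0 k / 2 := fun t => by
    rw [div_mul_eq_mul_div, div_lt_one c0p, lt_div_iff₀' two_pos]
  have b1 : ∀ z, CAt ∞ (fun z => WW k r s fun j => Q j (ι z)) z := fun z =>
    c_WW (q := fun j => loc (ch z) fun z => Q j (ι z)) rad.pos (smq · z) (nn' z)
  have b2 : ∀ z, CAt ∞ (fun z => w2 k r s fun j => Q j (ι z)) z := fun z =>
    c_w2 (q := fun j => loc (ch z) fun z => Q j (ι z)) rad.pos (smq · z) (nn' z)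
  have b3 : ∀ z, w2 k r s (fun j => Q j (ι z)) < c0 k / 2 →
      CAt ∞ (fun z => hs k r ε (c0 k / 2) s fun j => Q j (ι z)) z := fun z h =>
    c_hs (q := fun j => loc (ch z) fun z => Q j (ι z)) rad.pos (smq · z) (nn' z) (by linarith)
      (by simpa only [loc_pt] using h)
  refine ⟨fun z => WW k r s fun j => Q j (ι z), fun z => 2 / c0 k * w2 k r s fun j => Q j (ι z),
    fun z => hs k r ε (c0 k / 2) s fun j => Q j (ι z),
    ⟨cd_of_cAt le_rfl b1, cd_of_cAt le_rfl fun z => cAt_const.mul (b2 z),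
      fun z => one_le_WW rad.pos (nn z), fun z => mul_nonneg (by positivity) (w2_nn rad.pos (nn z)),
      fun z h => b3 z ((lt _).1 h),
      fun z h => hs_nn rad.pos (nn z) hε.le (by linarith) ((lt _).1 h), fun T => ?_, fun z => ?_,
      fun z h => ?_, h₁, fun z h h' => ?_⟩, fun c hc => ?_, fun z hz => ?_⟩
  · obtain ⟨K', a1, a2⟩ := s2 T
    exact ⟨2 / c0 k * K', (lt _).2 a1, fun z h h' => mul_le_mul_of_nonneg_left
      (a2 _ (nn z) ((lt _).1 h) h') (by positivity)⟩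
  · rw [← ip_pt]
    exact (s4 z).1
  · have := ((s4 z).2 (by simpa only [loc_pt, lt] using h)).1
    simp only [loc_pt] at this
    rw [← gn_pt, ← gn_pt]
    exact this
  · have := ((s4 z).2 (by simpa only [loc_pt, lt] using h)).2.2
    simp only [loc_pt] at this
    rw [← gn_pt]
    exact this h'
  · have cw : Continuous fun x => 2 / c0 k * w2 k r s fun j => Q j x :=
      continuous_const.mul (continuous_finsetSum _ fun j _ => continuous_iff_continuousAt.2 fun x =>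
        (sm_ker (k := 0) (add_pos_of_nonneg_of_pos ((hQ j).1.nn x)
          (pow_pos (rad.pos j) 2))).continuousAt.comp (hQ j).1.sm.cont.continuousAt)
    rw [sub.emb.isCompact_iff]
    convert cA.inter_right (isClosed_le cw (continuous_const (y := c))) using 1
    refine subset_antisymm ?_ fun x hx => ?_
    · rintro _ ⟨z, hz, rfl⟩
      exact ⟨(mem z).1, hz⟩
    · have : x ∈ range ι := sub.rng ▸ ⟨hx.1, fun h => by
        have a1 := mul_le_mul_of_nonneg_left (s1 _ (fun j => (hQ j).1.nn x)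
          (cov x ⟨⟨hx.1, h⟩, h⟩)) (by positivity : 0 ≤ 2 / c0 k)
        rw [div_mul_cancel₀ _ c0p.ne'] at a1
        exact not_le.2 hc (a1.trans hx.2)⟩
      obtain ⟨z, rfl⟩ := this
      exact ⟨z, hx.2, rfl⟩
  · obtain ⟨a1, a2, a3⟩ := out_eq (m := k) (s := s) rp (z := fun j => Q j (ι z))
      (fun j => (half_le_self (sq_nonneg r)).trans ((hQ j).2 _ fun h => h hz)) ε (c0 k / 2)
    exact ⟨a1, mul_eq_zero_of_right _ a2, a3⟩

variable {γ : Fld k Z} {u W w h : Z → ℝ} {v θ : ℝ}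

/-- the change of the weight -/
theorem Rf_shift (hγ : Met γ) {l : Z → ℝ} (hu : CAt 2 u z) (hl : CAt 2 l z) (hW : CAt 2 W z)
    (h1 : 1 ≤ W z) (hv : 0 ≤ v) (hL : lap γ W z + ip γ u W z ≤ v) :
    P366D.Rf γ (fun y => u y + l y) z - ip γ l l z - v + (gn γ W z / W z) ^ 2 / 2 ≤
      P366D.Rf γ (fun y => u y + l y + Real.log (W y) / 2) z := by
  have := Rf_add (hγ.loc' z) hu hl hW (by rwa [loc_pt]) hv (by rwa [← ip_pt] at hL)
  rw [← Rf_pt, ← Rf_pt, ← ip_pt, ← gn_pt, ← loc_pt W z]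
  exact this

/-- the inequality of the shield on a manifold with a local isometry `π` to `Z` -/
theorem Shz.up (H : Shz γ u W w h v θ) (hv : 0 ≤ v) {Z' : Type} [Mf0 k Z'] {π : Z' → Z}
    {γ' : Fld k Z'} {x : Z'} (hi : IsoM π γ γ' x) (hw : w (π x) < 1) (hu : CAt 2 u (π x))
    {u' W' h' l : Z' → ℝ} (eu : u' =ᶠ[𝓝 x] fun y => u (π y)) (eW : W' =ᶠ[𝓝 x] fun y => W (π y))
    (eh : h' =ᶠ[𝓝 x] fun y => h (π y)) (hl : CAt 2 l x) :
    P366D.Rf γ' (fun y => u' y + l y) x - ip γ' l l x - 2 * v ≤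
      P366D.Rf γ' (fun y => u' y + l y + Real.log (W' y) / 2) x + h' x ^ 2 - 2 * gn γ' h' x := by
  have s := hi.sm.self_of_nhds
  have a := Rf_shift hi.m' ((s.cAt two_le_oo hu).congr_of_eventuallyEq eu) hl
    ((s.cAt two_le_oo (H.smW.c2 _)).congr_of_eventuallyEq eW) (eW.self_of_nhds ▸ H.W1 _) hv (by
      rw [hi.lap (H.smW.c2 _) eW, hi.ip (diff2 hu) (H.smW.diff _) eu eW]; exact H.sup _)
  rw [hi.gn (H.smW.diff _) eW, eW.self_of_nhds] at a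
  rw [hi.gn ((H.smh _ hw).differentiableAt (by simp)) eh, eh.self_of_nhds]
  linarith [H.pos _ hw]

theorem Shz.cl (H : Shz γ u W w h v θ) (c : ℝ) : IsClosed {z | z ∈ {z | w z < 1} ∧ h z ≤ c} := by
  obtain ⟨a, a1, a2⟩ := H.cls c
  have e : {z | z ∈ {z | w z < 1} ∧ h z ≤ c} = {z | w z ≤ a} ∩ h ⁻¹' Iic c := by
    ext z
    exact ⟨fun k => ⟨a2 z k.1 k.2, k.2⟩, fun k => ⟨k.1.trans_lt a1, k.2⟩⟩
  rw [e]
  exact ContinuousOn.preimage_isClosed_of_isClosed (fun z hz =>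
    (H.smh z (hz.trans_lt a1)).continuousAt.continuousWithinAt)
    (isClosed_le H.smw.cont continuous_const) isClosed_Iic

/-- the shield on `Z` -/
theorem Shz.shd (H : Shz γ u W w h v θ) (hv : 0 ≤ v) (hγ : Met γ) (hu : P366M.Smooth u)
    {l : Z → ℝ} (hl : P366M.Smooth l)
    (hR : ∀ z, w z < 1 → 2 * v < P366D.Rf γ (fun y => u y + l y) z - ip γ l l z) :
    Shd γ (fun y => u y + l y + Real.log (W y) / 2) {z | w z < 1} h θ where
  opn := isOpen_lt H.smw.cont continuous_const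
  smh := H.smh
  h0 := H.h0
  cls := H.cl
  pos z hz := by
    linarith [hR z hz, H.pos z hz, Rf_shift hγ (hu.c2 z) (hl.c2 z) (H.smW.c2 z) (H.W1 z) hv (H.sup z)]
  big := H.big

end Vale.Agent.P366H
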